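import Vale.Agent.P216B.Sp

/-! Families of metrics, local isometries, piecewise smooth curves. -/

set_option linter.all false
set_option maxSynthPendingDepth 3

open scoped Manifold ContDiff Topology ENNReal
open Set MeasureTheory Filter

noncomputable section

namespace Vale.Agent.P216R

open Vale.Agent.P219.RG

variable {E : Type} [NormedAddCommGroup E] [NormedSpace ℝ E]
  {M : Type} [TopologicalSpace M] [ChartedSpace E M]
  {N : Type} [TopologicalSpace N] [ChartedSpace E N]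
  {g h : Ten E M} {G : ℝ → Ten E M} {I J : Set ℝ} {U V W K : Set M} {γ : ℝ → M}
  {a b t r R ρ ε : ℝ} {x y z : M}

theorem ev_compact {α : Type*} {l : Filter α} {P : α → M → Prop} (hK : IsCompact K)
    (h : ∀ y ∈ K, ∀ᶠ p in l ×ˢ 𝓝 y, P p.1 p.2) : ∀ᶠ a in l, ∀ y ∈ K, P a y := by
  obtain ⟨s, hs, u, hu, h1⟩ := mem_prod_iff.1 (hK.mem_prod_nhdsSet_of_forall h)
  exact mem_of_superset hs fun a ha y hy => h1 (mk_mem_prod ha (subset_of_mem_nhdsSet hu hy))

theorem exists_one_add_mul_lt {a r : ℝ≥0∞} (h : a < r) :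
    ∃ ε > 0, ENNReal.ofReal (1 + ε) * a < r := by
  have h1 : Tendsto (fun ε : ℝ => ENNReal.ofReal (1 + ε) * a) (𝓝[>] 0)
      (𝓝 (ENNReal.ofReal (1 + 0) * a)) :=
    ENNReal.Tendsto.mul_const ((ENNReal.continuous_ofReal.comp (continuous_const_add 1)).tendsto 0
      |>.mono_left nhdsWithin_le_nhds) (Or.inr h.ne_top)
  exact ((eventually_mem_nhdsWithin (s := Ioi (0 : ℝ))).and
    (h1.eventually (gt_mem_nhds (by simpa using h)))).exists

theorem tendsto_of_add' {α : Type*} {l : Filter α} {f F e : α → ℝ≥0∞} {d : ℝ≥0∞}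
    (hF : Tendsto F l (𝓝 d)) (he : Tendsto e l (𝓝 0)) (h1 : ∀ᶠ p in l, f p ≤ F p + e p)
    (h2 : ∀ᶠ p in l, F p ≤ f p + e p) : Tendsto f l (𝓝 d) := by
  refine tendsto_of_tendsto_of_tendsto_of_le_of_le' (g := fun p => F p - e p) ?_ ?_
    (h2.mono fun p hp => tsub_le_iff_right.2 hp) h1
  · simpa using ENNReal.Tendsto.sub hF he (Or.inr ENNReal.zero_ne_top)
  · simpa using hF.add he

theorem ed_le_len_pieces {s : ℕ → ℝ} (hx : γ (s 0) ∈ U) :
    ∀ n, (∀ i < n, Crv E U γ (s i) (s (i + 1))) →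
      s 0 ≤ s n ∧ ed g U (γ (s 0)) (γ (s n)) ≤ len g γ (s 0) (s n)
  | 0, _ => ⟨le_rfl, (ed_self hx).trans_le zero_le⟩
  | n + 1, h =>
    have h1 := ed_le_len_pieces hx n fun i hi => h i (hi.trans (lt_add_one n))
    have h2 := h n (lt_add_one n)
    ⟨h1.1.trans h2.le, (ed_triangle _ _ _).trans
      ((add_le_add h1.2 (ed_le_len h2)).trans_eq (len_add h1.1 h2.le))⟩

variable [FiniteDimensional ℝ E] [IsManifold 𝓘(ℝ, E) ∞ M]

/-- curves that are only continuous at the ends -/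
theorem Met.ed_le_len_open (hg : Met g U) (hab : a ≤ b) (hc : ContinuousOn γ (Icc a b))
    (hd : ContMDiffOn 𝓘(ℝ, ℝ) 𝓘(ℝ, E) 1 γ (Ioo a b)) (hm : MapsTo γ (Icc a b) U) :
    ed g U (γ a) (γ b) ≤ len g γ a b := by
  rcases hab.eq_or_lt with rfl | h0
  · exact (ed_self (hm ⟨le_rfl, le_rfl⟩)).trans_le zero_le
  have h1 : Tendsto γ (𝓝[>] a) (𝓝 (γ a)) :=
    (hc a ⟨le_rfl, hab⟩).tendsto.mono_left (nhdsWithin_le_of_mem (Icc_mem_nhdsGT h0))
  have h2 : Tendsto γ (𝓝[<] b) (𝓝 (γ b)) :=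
    (hc b ⟨hab, le_rfl⟩).tendsto.mono_left (nhdsWithin_le_of_mem (Icc_mem_nhdsLT h0))
  have h3 := (hg.continuousAt_ed (hm ⟨le_rfl, hab⟩) (hm ⟨hab, le_rfl⟩)).tendsto.comp
    ((h1.comp tendsto_fst).prodMk_nhds (h2.comp (tendsto_snd (f := 𝓝[>] a))))
  obtain ⟨m, m1, m2⟩ := exists_between h0
  refine le_of_tendsto h3 ?_
  filter_upwards [prod_mem_prod (Ioo_mem_nhdsGT m1) (Ioo_mem_nhdsLT m2)] with p hp
  have h4 : Icc p.1 p.2 ⊆ Ioo a b := Icc_subset_Ioo hp.1.1 hp.2.2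
  exact (ed_le_len ⟨(hp.1.2.trans hp.2.1).le, hd.mono h4,
    hm.mono_left (h4.trans Ioo_subset_Icc_self)⟩).trans (len_mono hp.1.1.le hp.2.2.le)

theorem form_chart (g : Ten E M) (hy : y ∈ (chartAt E x).source) (v w : E) : g y v w =
    co g x (chartAt E x y) (md E (chartAt E x) y v) (md E (chartAt E x) y w) := by
  rw [← comap_chart g hy]; rfl

theorem Fam.tendsto_co (h : Fam G I U) (ht : t ∈ I) (hx : x ∈ U) :
    Tendsto (fun p : ℝ × M => co (G p.1) x (chartAt E x p.2)) (𝓝[I] t ×ˢ 𝓝 x) (𝓝 (G t x)) := by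
  have h1 := (contDiffWithinAt_univ_of (h.smooth x) (isOpen_dom x h.isOpen) ht
    (pt_mem_dom hx)).continuousWithinAt.tendsto
  simp only [nhdsWithin_prod_eq, nhdsWithin_univ, co_pt] at h1
  exact Tendsto.comp (g := fun p : ℝ × E => co (G p.1) x p.2)
    (f := fun p : ℝ × M => (p.1, chartAt E x p.2)) h1 (tendsto_fst.prodMk
      (((chartAt E x).continuousAt (mem_chart_source E x)).tendsto.comp tendsto_snd))

theorem Fam.close_at (h : Fam G I U) (ht : t ∈ I) (hx : x ∈ U) (hε : 0 < ε) :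
    ∀ᶠ p in (𝓝[I] t ×ˢ 𝓝[I] t) ×ˢ 𝓝 x, ∀ v, G p.1.1 p.2 v v ≤ (1 + ε) ^ 2 * G p.1.2 p.2 v v := by
  obtain ⟨c, hc, hB⟩ := exists_coer (h.pos t ht x hx)
  have h1 := close_forms (h.tendsto_co ht hx) hc hB hε
  filter_upwards [(tendsto_fst.prodMap tendsto_id).eventually h1,
    (tendsto_snd.prodMap tendsto_id).eventually h1,
    tendsto_snd.eventually ((chartAt E x).open_source.mem_nhds (mem_chart_source E x))]
    with p h2 h3 h4 v
  rw [form_chart _ h4, form_chart (G p.1.2) h4, sq, mul_assoc]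
  exact (h2 _).1.trans (mul_le_mul_of_nonneg_left (h3 _).2 (by positivity))

/-- on a compact set the metrics at nearby times are close -/
theorem Fam.close₂ (h : Fam G I U) (ht : t ∈ I) (hK : IsCompact K) (hU : K ⊆ U) (hε : 0 < ε) :
    ∀ᶠ p in 𝓝[I] t ×ˢ 𝓝[I] t, ∀ y ∈ K, ∀ v, G p.1 y v v ≤ (1 + ε) ^ 2 * G p.2 y v v :=
  ev_compact (P := fun (p : ℝ × ℝ) y => ∀ v, G p.1 y v v ≤ (1 + ε) ^ 2 * G p.2 y v v) hK
    fun _ hy => h.close_at ht (hU hy) hε

theorem Fam.close (h : Fam G I U) (ht : t ∈ I) (hK : IsCompact K) (hU : K ⊆ U) (hε : 0 < ε) :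
    ∀ᶠ s in 𝓝[I] t, ∀ y ∈ K, ∀ v, G s y v v ≤ (1 + ε) ^ 2 * G t y v v ∧
      G t y v v ≤ (1 + ε) ^ 2 * G s y v v := by
  have h1 : Tendsto (fun _ : ℝ => t) (𝓝[I] t) (𝓝[I] t) := tendsto_const_nhdsWithin ht
  filter_upwards [(tendsto_id.prodMk h1).eventually (h.close₂ ht hK hU hε),
    (h1.prodMk tendsto_id).eventually (h.close₂ ht hK hU hε)] with s h2 h3 y hy v
  exact ⟨h2 y hy v, h3 y hy v⟩

theorem compact_const {X : Type*} [TopologicalSpace X] {K : Set X} (hK : IsCompact K)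
    {P : ℝ → X → Prop} (hm : ∀ C C' x, 0 < C → C ≤ C' → x ∈ K → P C x → P C' x)
    (h : ∀ x ∈ K, ∃ C > 0, ∀ᶠ y in 𝓝[K] x, P C y) : ∃ C > 0, ∀ x ∈ K, P C x := by
  refine (hK.induction_on (p := fun s => ∃ C > 0, ∀ x ∈ s, x ∈ K → P C x) ⟨1, one_pos, by simp⟩
    (fun s t h ⟨C, h1, h2⟩ => ⟨C, h1, fun x hx => h2 x (h hx)⟩)
    (fun s t ⟨C, h1, h2⟩ ⟨C', h3, h4⟩ => ⟨max C C', lt_max_of_lt_left h1, fun x hx hK => hx.elim
      (fun h => hm _ _ _ h1 (le_max_left _ _) hK (h2 x h hK))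
      fun h => hm _ _ _ h3 (le_max_right _ _) hK (h4 x h hK)⟩) fun x hx => ?_).imp
    fun C h => ⟨h.1, fun x hx => h.2 x hx hx⟩
  obtain ⟨C, h1, h2⟩ := h x hx
  exact ⟨_, h2, C, h1, fun _ h _ => h⟩

/-- two metrics are comparable on a compact set -/
theorem Met.exists_le (hg : Met g U) (hh : Met h U) (hK : IsCompact K) (hU : K ⊆ U) :
    ∃ C > 0, ∀ y ∈ K, ∀ v, g y v v ≤ C ^ 2 * h y v v := by
  refine compact_const hK (fun C C' y h1 h2 hy h3 v => (h3 v).trans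
    (mul_le_mul_of_nonneg_right (by gcongr) (hh.nonneg (hU hy) v))) fun x hx => ?_
  obtain ⟨c, hc, hB⟩ := exists_coer (hh.pos x (hU hx))
  obtain ⟨c', hc', hB'⟩ := exists_coer (hg.pos x (hU hx))
  have l : Tendsto (fun y : M => ((0 : ℝ), y)) (𝓝 x) (𝓝[univ] 0 ×ˢ 𝓝 x) :=
    (tendsto_const_nhdsWithin (mem_univ _)).prodMk tendsto_id
  refine ⟨√(4 * (‖g x‖ + 1) / c), by positivity, mem_nhdsWithin_of_mem_nhds ?_⟩
  filter_upwards [close_forms (((hg.fam univ).tendsto_co (mem_univ 0) (hU hx)).comp l) hc' hB' one_pos,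
    close_forms (((hh.fam univ).tendsto_co (mem_univ 0) (hU hx)).comp l) hc hB one_pos,
    (chartAt E x).open_source.mem_nhds (mem_chart_source E x)] with y h1 h2 h3 v
  rw [form_chart _ h3, form_chart h h3, Real.sq_sqrt (by positivity)]
  generalize md E (chartAt E x) y v = w
  refine (h1 w).1.trans ?_
  have h4 := (hB w).trans (h2 w).2
  have h5 := form_le_norm (g x) w
  rw [div_mul_eq_mul_div, le_div_iff₀ hc]
  simp only [Function.comp] at h4
  have h6 : 0 ≤ c * ‖w‖ ^ 2 := by positivity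
  nlinarith [mul_le_mul_of_nonneg_left h4 (norm_nonneg (g x)), mul_le_mul_of_nonneg_left h5 hc.le]

theorem Fam.exists_le (h : Fam G I U) (hJ : IsCompact J) (hI : J ⊆ I) (hK : IsCompact K)
    (hU : K ⊆ U) : ∃ C > 0, ∀ s ∈ J, ∀ t ∈ J, ∀ y ∈ K, ∀ v, G s y v v ≤ C ^ 2 * G t y v v := by
  refine (compact_const (hJ.prod hJ)
    (P := fun C p => ∀ y ∈ K, ∀ v, G p.1 y v v ≤ C ^ 2 * G p.2 y v v)
    (fun C C' p h1 h2 hp h3 y hy v => (h3 y hy v).trans (mul_le_mul_of_nonneg_right (by gcongr)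
      ((h.met (hI hp.2)).nonneg (hU hy) v))) fun p hp => ?_).imp
    fun C h => ⟨h.1, fun s hs t ht => h.2 (s, t) ⟨hs, ht⟩⟩
  obtain ⟨C, h1, h2⟩ := (h.met (hI hp.1)).exists_le (h.met (hI hp.2)) hK hU
  refine ⟨(1 + 1) * C * (1 + 1), by positivity, ?_⟩
  rw [← p.eta, nhdsWithin_prod_eq]
  filter_upwards [prod_mem_prod (nhdsWithin_mono _ hI (h.close (hI hp.1) hK hU one_pos))
    (nhdsWithin_mono _ hI (h.close (hI hp.2) hK hU one_pos))] with q hq y hy v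
  calc _ ≤ _ := (hq.1 y hy v).1
    _ ≤ (1 + 1) ^ 2 * (C ^ 2 * ((1 + 1) ^ 2 * G q.2 y v v)) := by
      gcongr; exact (h2 y hy v).trans (by gcongr; exact (hq.2 y hy v).2)
    _ = _ := by ring

/-- comparison in the other direction: `g ≤ C² h` is known on a `g`-ball -/
theorem Cpt.ed_le (hc : Cpt g U x R) (hg : Met g U) (hH : Hs U) (hx : x ∈ U) {C : ℝ} (hC : 0 < C)
    (hle : ∀ z ∈ bl g U x R, ∀ v, g z v v ≤ C ^ 2 * h z v v)
    (hy : ENNReal.ofReal C * ed h U x y < ENNReal.ofReal R) :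
    ed g U x y ≤ ENNReal.ofReal C * ed h U x y := by
  obtain ⟨ρ, -, h1, h2⟩ := ENNReal.lt_iff_exists_real_btwn.1 hy
  have h0 : 0 < R := ENNReal.ofReal_pos.1 (zero_le.trans_lt hy)
  have h3 := (ENNReal.ofReal_lt_ofReal_iff h0).1 h2
  have hC0 : ENNReal.ofReal C ≠ 0 := by simpa using hC
  obtain ⟨q, -, rfl, h4⟩ := ed_pull (h := h) (g := g) (ld_id (hg.isOpen_bl x R)) (injOn_id _)
    P216R.bl_subset hH hC (by rwa [comap_id]) (hc ρ h3) (cbl_subset_bl h0 h3) (mem_bl_self hx h0)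
    (r := ENNReal.ofReal ρ / ENNReal.ofReal C) (z := y) (fun q hq => by
      rw [ENNReal.mul_div_cancel hC0 ENNReal.ofReal_ne_top] at hq
      exact ((ed_anti P216R.bl_subset).trans hq.le :))
    ((ENNReal.lt_div_iff_mul_lt (Or.inl hC0) (Or.inl ENNReal.ofReal_ne_top)).2 (by rwa [mul_comm]))
  exact (ed_anti P216R.bl_subset).trans h4

theorem Fam.ed_lt (h : Fam G I U) (ht : t ∈ I) {r : ℝ≥0∞} (hr : ed (G t) U x y < r) :
    ∀ᶠ s in 𝓝[I] t, ed (G s) U x y < r := by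
  obtain ⟨γ, h1, rfl, rfl, h4⟩ := ed_lt_iff.1 hr
  obtain ⟨ε, h5, h6⟩ := exists_one_add_mul_lt h4
  filter_upwards [h.close ht (isCompact_Icc.image_of_continuousOn h1.cont) h1.mem.image_subset h5]
    with s hs
  exact ((ed_le_len h1).trans (len_le (by positivity) fun τ hτ => spd_le (by positivity) fun v =>
    (hs _ (mem_image_of_mem _ (Ioo_subset_Icc_self hτ)) v).1)).trans_lt h6

/-- two sided comparison of the distances from `x` at nearby times -/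
theorem Fam.ed_close (h : Fam G I U) (hH : Hs U) (ht : t ∈ I) (hx : x ∈ U)
    (hc : IsCompact (cbl (G t) U x R)) (hε : 0 < ε) : ∀ᶠ s in 𝓝[I] t, ∀ y,
      (y ∈ bl (G t) U x R → ed (G s) U x y ≤ ENNReal.ofReal (1 + ε) * ed (G t) U x y) ∧
      (ENNReal.ofReal (1 + ε) * ed (G s) U x y < ENNReal.ofReal R →
        ed (G t) U x y ≤ ENNReal.ofReal (1 + ε) * ed (G s) U x y) := by
  filter_upwards [h.close ht hc cbl_subset hε] with s hs y
  exact ⟨ed_le_mul_of_ball (by positivity) fun z hz v => (hs z (bl_subset_cbl hz) v).1,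
    Cpt.ed_le (fun r hr => (h.met ht).isCompact_cbl hc cbl_subset (cbl_mono hr.le)) (h.met ht) hH hx
      (by positivity) fun z hz v => (hs z (bl_subset_cbl hz) v).2⟩

theorem Fam.cbl_subset_bl (h : Fam G I U) (hH : Hs U) (ht : t ∈ I) (hx : x ∈ U)
    (hc : IsCompact (cbl (G t) U x R)) (h0 : 0 < R) (hr : r < R) :
    ∀ᶠ s in 𝓝[I] t, cbl (G s) U x r ⊆ bl (G t) U x R ∧ cbl (G t) U x r ⊆ bl (G s) U x R := by
  obtain ⟨ε, h1, h2⟩ := exists_one_add_mul_lt ((ENNReal.ofReal_lt_ofReal_iff h0).2 hr)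
  filter_upwards [h.ed_close hH ht hx hc h1] with s hs
  refine ⟨fun y hy => ?_, fun y hy => ((hs y).1 (P216R.cbl_subset_bl h0 hr hy)).trans_lt
    ((mul_le_mul_right hy _).trans_lt h2)⟩
  have h3 := (mul_le_mul_right hy (ENNReal.ofReal (1 + ε))).trans_lt h2
  exact ((hs y).2 h3).trans_lt h3

theorem Fam.eventually_cpt (h : Fam G I U) (hH : Hs U) (ht : t ∈ I) (hx : x ∈ U)
    (hc : IsCompact (cbl (G t) U x R)) (h0 : 0 < R) (hr : r < R) :
    ∀ᶠ s in 𝓝[I] t, IsCompact (cbl (G s) U x r) := by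
  filter_upwards [h.cbl_subset_bl hH ht hx hc h0 hr, self_mem_nhdsWithin] with s h1 h2
  exact (h.met h2).isCompact_cbl hc cbl_subset (h1.1.trans bl_subset_cbl)

theorem Fam.tendsto_ed (h : Fam G I U) (hH : Hs U) (ht : t ∈ I) (hc : Cpt (G t) U x R)
    (hy : y ∈ bl (G t) U x R) : Tendsto (fun s => ed (G s) U x y) (𝓝[I] t) (𝓝 (ed (G t) U x y)) := by
  refine tendsto_order.2 ⟨fun r hr => ?_, fun r => h.ed_lt ht⟩
  obtain ⟨ρ, -, h1, h2⟩ := exists_lt_of_mem_bl hy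
  obtain ⟨ε, h3, h4⟩ := exists_one_add_mul_lt hr
  filter_upwards [h.ed_close hH ht (mem_of_ed_ne (ne_top_of_lt hy)).1 (hc ρ h1) h3] with s hs
  by_contra hn
  have h5 := (mul_le_mul_right (not_lt.1 hn) (ENNReal.ofReal (1 + ε))).trans_lt h4
  exact (((hs y).2 (h5.trans h2)).trans_lt h5).false

theorem Fam.tendsto_ed_zero (h : Fam G I U) (ht : t ∈ I) (hx : x ∈ U) :
    Tendsto (fun p : ℝ × M => ed (G p.1) U x p.2) (𝓝[I] t ×ˢ 𝓝 x) (𝓝 0) := by
  have : LocallyCompactSpace M := ChartedSpace.locallyCompactSpace E M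
  obtain ⟨K, h1, h2, h3⟩ := local_compact_nhds (h.isOpen.mem_nhds hx)
  have h4 := ((h.met ht).mono isOpen_interior (interior_subset.trans h2)).tendsto_ed_right
    (mem_interior_iff_mem_nhds.2 h1)
  refine tendsto_of_tendsto_of_tendsto_of_le_of_le' tendsto_const_nhds (by
    simpa using ENNReal.Tendsto.const_mul (a := ENNReal.ofReal (1 + 1)) (h4.comp tendsto_snd)
      (Or.inr ENNReal.ofReal_ne_top)) (Eventually.of_forall fun _ => zero_le) ?_
  filter_upwards [tendsto_fst.eventually (h.close ht h3 h2 one_pos)] with p hp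
  simpa using (ed_anti (interior_subset.trans h2)).trans
    (ed_le_mul (by positivity) (fun z hz v => (hp z (interior_subset hz) v).1) x p.2)

/-- joint continuity of the distance in time and in both points -/
theorem Fam.tendsto_ed₃ (h : Fam G I U) (hH : Hs U) (ht : t ∈ I) (hc : Cpt (G t) U x R)
    (hy : y ∈ bl (G t) U x R) : Tendsto (fun p : ℝ × M × M => ed (G p.1) U p.2.1 p.2.2)
      (𝓝[I] t ×ˢ 𝓝 (x, y)) (𝓝 (ed (G t) U x y)) := by
  obtain ⟨h1, h2⟩ := mem_of_ed_ne (ne_top_of_lt hy)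
  refine tendsto_of_add' (e := fun p => ed (G p.1) U x p.2.1 + ed (G p.1) U y p.2.2)
    ((h.tendsto_ed hH ht hc hy).comp tendsto_fst) ?_
    (Eventually.of_forall fun p => ?_) (Eventually.of_forall fun p => ?_)
  · simpa using ((h.tendsto_ed_zero ht h1).comp
      (tendsto_id.prodMap (continuous_fst.tendsto (x, y)))).add
      ((h.tendsto_ed_zero ht h2).comp (tendsto_id.prodMap (continuous_snd.tendsto (x, y))))
  · refine (ed_triangle _ x _).trans ((add_le_add le_rfl (ed_triangle _ y _)).trans_eq ?_)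
    rw [ed_comm (y := x), Function.comp]; ring
  · refine (ed_triangle _ p.2.1 _).trans ((add_le_add le_rfl (ed_triangle _ p.2.2 _)).trans_eq ?_)
    rw [ed_comm (y := y) (x := p.2.2)]; ring

theorem Fam.tendsto_dd₃ (h : Fam G I U) (hH : Hs U) (ht : t ∈ I) (hc : Cpt (G t) U x R)
    (hy : y ∈ bl (G t) U x R) : Tendsto (fun p : ℝ × M × M => dd (G p.1) U p.2.1 p.2.2)
      (𝓝[I] t ×ˢ 𝓝 (x, y)) (𝓝 (dd (G t) U x y)) :=
  (ENNReal.tendsto_toReal (ne_top_of_lt hy)).comp (h.tendsto_ed₃ hH ht hc hy)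

theorem Fam.continuousOn_dd (h : Fam G I U) (hH : Hs U) (hU : IsPreconnected U)
    (hc : ∀ t ∈ I, Cpl (G t) U) :
    ContinuousOn (fun p : ℝ × M × M => dd (G p.1) U p.2.1 p.2.2) (I ×ˢ U ×ˢ U) := fun p hp => by
  have h1 := (h.met hp.1).ed_ne_top hU subset_rfl hp.2.1 hp.2.2
  refine (h.tendsto_dd₃ hH hp.1 ((hc _ hp.1).cpt hp.2.1 _)
    (mem_bl_iff.2 ⟨h1, lt_add_one _⟩)).mono_left ?_
  rw [← p.eta, nhdsWithin_prod_eq]
  exact prod_mono_right _ nhdsWithin_le_nhds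

/-! ### local isometries -/

variable [IsManifold 𝓘(ℝ, E) ∞ N] {f : N → M} {S : Set N} {p : N}

theorem LD.exists_injOn (hf : LD E f S) (hp : p ∈ S) :
    ∃ T, IsOpen T ∧ p ∈ T ∧ T ⊆ S ∧ InjOn f T := by
  obtain ⟨k, -, k2, -⟩ := exists_inv (hf.sm hp) (hf.inj p hp)
  obtain ⟨T, h1, h2, h3⟩ := mem_nhds_iff.1 (inter_mem k2 (hf.isOpen.mem_nhds hp))
  exact ⟨T, h2, h3, fun q hq => (h1 hq).2, fun a ha b hb e =>
    (h1 ha).1.symm.trans ((congrArg k e).trans (h1 hb).1)⟩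

/-- a local isometry preserves small distances -/
theorem Met.ed_loc (hg : Met g U) (hH : Hs U) (hf : LD E f S) (hm : MapsTo f S U) (hp : p ∈ S) :
    ∀ᶠ q in 𝓝 (p, p), ed g U (f q.1) (f q.2) = ed (P216R.comap f g) S q.1 q.2 := by
  obtain ⟨T, h1, h2, h3, h4⟩ := hf.exists_injOn hp
  have h5 := hf.mono h1 h3
  have h6 := hg.comap h5 (hm.mono_left h3)
  obtain ⟨R, h7, h8⟩ := h6.exists_cpt (h5.hs h4 (hm.mono_left h3) hH) h2
  filter_upwards [(continuous_fst.tendsto (p, p)).eventually (h6.bl_mem_nhds h2 (half_pos h7)),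
    (h6.tendsto_ed h2).eventually (gt_mem_nhds (ENNReal.ofReal_pos.2 (sub_pos.2 (half_lt_self h7))))]
    with q q1 q2
  exact le_antisymm (hf.ed_le hm _ _) ((ed_anti h3).trans_eq
    (((h8.shift h6 (half_pos h7).le (half_lt_self h7) (bl_subset_cbl q1)).push h5 h4
      (fun _ _ => rfl) (bl_subset q1) (hm.mono_left h3) hH le_rfl).2 _ q2).symm)

end Vale.Agent.P216R
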