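import Vale.Agent.P216R.Defs

/-! Lengths of curves and the triangle inequality. -/

set_option linter.all false

open scoped Manifold ContDiff Topology ENNReal
open Set MeasureTheory Filter

noncomputable section

namespace Vale.Agent.P216R

variable {E : Type} [NormedAddCommGroup E] [NormedSpace ℝ E]
  {M : Type} [TopologicalSpace M] [ChartedSpace E M]
  {N : Type} [TopologicalSpace N] [ChartedSpace E N]
  {g h : Ten E M} {U V : Set M} {γ γ' : ℝ → M} {a b c t : ℝ} {x y z : M}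

/-- differentiability of a curve at a time -/
abbrev DAt (E : Type) [NormedAddCommGroup E] [NormedSpace ℝ E] {M : Type} [TopologicalSpace M]
    [ChartedSpace E M] (γ : ℝ → M) (t : ℝ) : Prop := MDifferentiableAt 𝓘(ℝ, ℝ) 𝓘(ℝ, E) γ t

theorem vel_congr (h : γ =ᶠ[𝓝 t] γ') : vel E γ t = vel E γ' t := by
  unfold vel; rw [h.mfderiv_eq]; rfl

theorem spd_congr (h : γ =ᶠ[𝓝 t] γ') : spd g γ t = spd g γ' t := by
  rw [spd, spd, vel_congr h, h.eq_of_nhds]

theorem spd_nonneg : 0 ≤ spd g γ t := Real.sqrt_nonneg _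

theorem vel_const : vel E (fun _ : ℝ => x) t = 0 := by
  unfold vel; rw [mfderiv_const]; rfl

theorem vel_model (γ : ℝ → E) (t : ℝ) : vel E γ t = deriv γ t := by
  unfold vel; rw [mfderiv_eq_fderiv]; rfl

theorem vel_reparam {φ : ℝ → ℝ} {d : ℝ} (hφ : HasDerivAt φ d t) (hγ : DAt E γ (φ t)) :
    vel E (γ ∘ φ) t = d • vel E γ (φ t) := by
  unfold vel
  rw [mfderiv_comp t hγ hφ.differentiableAt.mdifferentiableAt, mfderiv_eq_fderiv,
    hφ.hasFDerivAt.fderiv]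
  exact (congrArg (mfderiv 𝓘(ℝ, ℝ) 𝓘(ℝ, E) γ (φ t)) (show (1 : ℝ) • d = d • (1 : ℝ) by simp)).trans
    (map_smul _ _ _)

theorem sqrt_smul (B : Bil E) (d : ℝ) (v : E) : √(B (d • v) (d • v)) = |d| * √(B v v) := by
  simp only [map_smul, ContinuousLinearMap.smul_apply, smul_eq_mul]
  rw [← mul_assoc, Real.sqrt_mul (mul_self_nonneg d), Real.sqrt_mul_self_eq_abs]

theorem spd_reparam {φ : ℝ → ℝ} {d : ℝ} (hφ : HasDerivAt φ d t) (hγ : DAt E γ (φ t)) :
    spd g (γ ∘ φ) t = |d| * spd g γ (φ t) := by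
  rw [spd, vel_reparam hφ hγ, sqrt_smul]; rfl

theorem vel_map {f : N → M} {γ : ℝ → N} (hf : MDifferentiableAt 𝓘(ℝ, E) 𝓘(ℝ, E) f (γ t))
    (hγ : DAt E γ t) : vel E (f ∘ γ) t = md E f (γ t) (vel E γ t) := by
  unfold vel md
  rw [mfderiv_comp t hf hγ]; rfl

theorem spd_map {f : N → M} {γ : ℝ → N} (hf : MDifferentiableAt 𝓘(ℝ, E) 𝓘(ℝ, E) f (γ t))
    (hγ : DAt E γ t) : spd g (f ∘ γ) t = spd (comap f g) γ t := by
  rw [spd, vel_map hf hγ]; rfl

theorem Crv.dat (h : Crv E U γ a b) (ht : t ∈ Ioo a b) : DAt E γ t :=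
  (h.diff.contMDiffAt (Icc_mem_nhds ht.1 ht.2)).mdifferentiableAt one_ne_zero

theorem Crv.cont (h : Crv E U γ a b) : ContinuousOn γ (Icc a b) := h.diff.continuousOn

theorem Crv.left (h : Crv E U γ a b) : γ a ∈ U := h.mem ⟨le_rfl, h.le⟩

theorem Crv.right (h : Crv E U γ a b) : γ b ∈ U := h.mem ⟨h.le, le_rfl⟩

theorem Crv.mono (h : Crv E U γ a b) {a' b' : ℝ} (h1 : a ≤ a') (h2 : a' ≤ b') (h3 : b' ≤ b) :
    Crv E U γ a' b' :=
  ⟨h2, h.diff.mono (Icc_subset_Icc h1 h3), h.mem.mono_left (Icc_subset_Icc h1 h3)⟩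

theorem Crv.of_mem (h : Crv E U γ a b) (hV : MapsTo γ (Icc a b) V) : Crv E V γ a b :=
  ⟨h.le, h.diff, hV⟩

theorem Crv.congr (h : Crv E U γ a b) (he : EqOn γ' γ (Icc a b)) : Crv E U γ' a b :=
  ⟨h.le, h.diff.congr he, fun t ht => he ht ▸ h.mem ht⟩

theorem Crv.comp (h : Crv E U γ a b) {φ : ℝ → ℝ} {a' b' : ℝ} (hab : a' ≤ b')
    (h1 : ContDiffOn ℝ 1 φ (Icc a' b')) (h2 : MapsTo φ (Icc a' b') (Icc a b)) :
    Crv E U (γ ∘ φ) a' b' := ⟨hab, h.diff.comp h1.contMDiffOn h2, h.mem.comp h2⟩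

theorem Crv.map {f : N → M} {W : Set N} {γ : ℝ → N} (h : Crv E W γ a b)
    (hf : ContMDiffOn 𝓘(ℝ, E) 𝓘(ℝ, E) 1 f W) (hU : MapsTo f W U) : Crv E U (f ∘ γ) a b :=
  ⟨h.le, hf.comp h.diff h.mem, hU.comp h.mem⟩

theorem crv_const (hx : x ∈ U) (hab : a ≤ b) : Crv E U (fun _ => x) a b :=
  ⟨hab, contMDiffOn_const, fun _ _ => hx⟩

theorem len_congr (h : EqOn γ γ' (Ioo a b)) : len g γ a b = len g γ' a b :=
  setLIntegral_congr_fun measurableSet_Ioo fun t ht => by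
    rw [spd_congr (h.eventuallyEq_of_mem (Ioo_mem_nhds ht.1 ht.2))]

theorem len_self : len g γ a a = 0 := by simp [len]

theorem len_const : len g (fun _ => x) a b = 0 := by simp [len, spd, vel_const]

theorem len_mono {a' b' : ℝ} (h1 : a ≤ a') (h2 : b' ≤ b) : len g γ a' b' ≤ len g γ a b :=
  lintegral_mono_set (Ioo_subset_Ioo h1 h2)

theorem len_Icc : len g γ a b = ∫⁻ t in Icc a b, ENNReal.ofReal (spd g γ t) := by
  rw [len, restrict_Ioo_eq_restrict_Icc]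

theorem len_add (h1 : a ≤ b) (h2 : b ≤ c) : len g γ a b + len g γ b c = len g γ a c := by
  rw [len_Icc, len_Icc, len_Icc, ← Icc_union_Ioc_eq_Icc h1 h2, lintegral_union measurableSet_Ioc
    (disjoint_iff_forall_ne.2 fun a ha b hb => (ha.2.trans_lt hb.1).ne),
    restrict_Ioc_eq_restrict_Icc]

theorem len_le {γ' : ℝ → N} {h : Ten E N} {C : ℝ} (hC : 0 ≤ C)
    (hs : ∀ t ∈ Ioo a b, spd g γ t ≤ C * spd h γ' t) :
    len g γ a b ≤ ENNReal.ofReal C * len h γ' a b := by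
  rw [len, len, ← lintegral_const_mul' _ _ ENNReal.ofReal_ne_top]
  exact setLIntegral_mono' measurableSet_Ioo fun t ht => by
    rw [← ENNReal.ofReal_mul hC]; exact ENNReal.ofReal_le_ofReal (hs t ht)

theorem len_le_const {C : ℝ} (hs : ∀ t ∈ Ioo a b, spd g γ t ≤ C) :
    len g γ a b ≤ ENNReal.ofReal C * ENNReal.ofReal (b - a) := by
  rw [len, ← Real.volume_Ioo, ← setLIntegral_const]
  exact setLIntegral_mono' measurableSet_Ioo fun t ht => ENNReal.ofReal_le_ofReal (hs t ht)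

theorem len_eq_const {C : ℝ} (hs : ∀ t ∈ Ioo a b, spd g γ t = C) :
    len g γ a b = ENNReal.ofReal C * ENNReal.ofReal (b - a) := by
  rw [len, ← Real.volume_Ioo, ← setLIntegral_const]
  exact setLIntegral_congr_fun measurableSet_Ioo fun t ht => by rw [hs t ht]

theorem len_map {f : N → M} {W : Set N} {γ : ℝ → N} (h : Crv E W γ a b)
    (hf : ∀ x ∈ W, MDifferentiableAt 𝓘(ℝ, E) 𝓘(ℝ, E) f x) :
    len g (f ∘ γ) a b = len (comap f g) γ a b :=
  setLIntegral_congr_fun measurableSet_Ioo fun t ht => by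
    rw [spd_map (hf _ (h.mem (Ioo_subset_Icc_self ht))) (h.dat ht)]

theorem spd_cases {φ : ℝ → ℝ} (hφ : DifferentiableAt ℝ φ t) {a' b' : ℝ} (h : Crv E U γ a' b')
    (hm : ∀ᶠ s in 𝓝 t, φ s ∈ Icc a' b') : spd g (γ ∘ φ) t = |deriv φ t| * spd g γ (φ t) := by
  by_cases h1 : φ t ∈ Ioo a' b'
  · exact spd_reparam hφ.hasDerivAt (h.dat h1)
  have h2 : deriv φ t = 0 := by
    have h3 := hm.self_of_nhds
    rcases eq_endpoints_or_mem_Ioo_of_mem_Icc h3 with h4 | h4 | h4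
    · exact IsLocalMin.deriv_eq_zero (hm.mono fun s hs => h4 ▸ hs.1)
    · exact IsLocalMax.deriv_eq_zero (hm.mono fun s hs => h4 ▸ hs.2)
    · exact (h1 h4).elim
  have h3 := ((h.diff.mdifferentiableOn one_ne_zero _ hm.self_of_nhds).hasMFDerivWithinAt.comp t
    (hφ.hasFDerivAt.hasMFDerivAt.hasMFDerivWithinAt (s := φ ⁻¹' Icc a' b'))
      subset_rfl).hasMFDerivAt hm
  have h4 : vel E (γ ∘ φ) t = 0 := by
    unfold vel
    rw [h3.mfderiv]
    exact (congrArg (mfderivWithin 𝓘(ℝ, ℝ) 𝓘(ℝ, E) γ (Icc a' b') (φ t))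
      (show fderiv ℝ φ t 1 = 0 from h2)).trans (ContinuousLinearMap.map_zero _)
  simp [spd, h4, h2]

theorem len_comp_mono {φ : ℝ → ℝ} (hab : a ≤ b) (hm : MonotoneOn φ (Icc a b))
    (hd : DifferentiableOn ℝ φ (Icc a b)) (h : Crv E U γ (φ a) (φ b)) :
    len g (γ ∘ φ) a b = len g γ (φ a) (φ b) := by
  have im := hd.continuousOn.image_Icc_of_monotoneOn hab hm
  rw [len_Icc (γ := γ), ← im, lintegral_image_eq_lintegral_deriv_mul_of_monotoneOn measurableSet_Icc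
    (fun t ht => (hd t ht).hasDerivWithinAt) hm, ← restrict_Ioo_eq_restrict_Icc]
  refine setLIntegral_congr_fun measurableSet_Ioo fun t ht => ?_
  have h1 := Icc_mem_nhds ht.1 ht.2
  have h2 : 0 ≤ derivWithin φ (Icc a b) t := hm.derivWithin_nonneg
  rw [derivWithin_of_mem_nhds h1] at h2 ⊢
  rw [spd_cases (hd.differentiableAt h1) h (mem_of_superset h1 fun s hs =>
    im ▸ mem_image_of_mem φ hs), abs_of_nonneg h2, ENNReal.ofReal_mul h2]

theorem len_comp_anti {φ : ℝ → ℝ} (hab : a ≤ b) (hm : AntitoneOn φ (Icc a b))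
    (hd : DifferentiableOn ℝ φ (Icc a b)) (h : Crv E U γ (φ b) (φ a)) :
    len g (γ ∘ φ) a b = len g γ (φ b) (φ a) := by
  have im := hd.continuousOn.image_Icc_of_antitoneOn hab hm
  rw [len_Icc (γ := γ), ← im, lintegral_image_eq_lintegral_deriv_mul_of_antitoneOn measurableSet_Icc
    (fun t ht => (hd t ht).hasDerivWithinAt) hm, ← restrict_Ioo_eq_restrict_Icc]
  refine setLIntegral_congr_fun measurableSet_Ioo fun t ht => ?_
  have h1 := Icc_mem_nhds ht.1 ht.2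
  have h2 : derivWithin φ (Icc a b) t ≤ 0 := hm.derivWithin_nonpos
  rw [derivWithin_of_mem_nhds h1] at h2 ⊢
  rw [spd_cases (hd.differentiableAt h1) h (mem_of_superset h1 fun s hs =>
    im ▸ mem_image_of_mem φ hs), abs_of_nonpos h2, ENNReal.ofReal_mul (neg_nonneg.2 h2)]

/-- affine reparametrisation -/
theorem Crv.affine (h : Crv E U γ (c * a + t) (c * b + t)) (hc : 0 ≤ c) (hab : a ≤ b) :
    Crv E U (fun s => γ (c * s + t)) a b ∧
      ∀ g : Ten E M, len g (fun s => γ (c * s + t)) a b = len g γ (c * a + t) (c * b + t) := by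
  have m : Monotone fun s => c * s + t := fun _ _ h => by dsimp only; gcongr
  exact ⟨h.comp (φ := fun s => c * s + t) hab (by fun_prop) fun s hs => ⟨m hs.1, m hs.2⟩, fun g =>
    len_comp_mono (φ := fun s => c * s + t) hab (m.monotoneOn _) (by fun_prop) h⟩

/-- reversal -/
theorem Crv.rev (h : Crv E U γ a b) : Crv E U (fun s => γ (a + b - s)) a b ∧
    ∀ g : Ten E M, len g (fun s => γ (a + b - s)) a b = len g γ a b := by
  refine ⟨h.comp (φ := fun s => a + b - s) h.le (by fun_prop) fun s hs =>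
    ⟨by linarith [hs.2], by linarith [hs.1]⟩, fun g => ?_⟩
  have := len_comp_anti (g := g) (φ := fun s => a + b - s) h.le (fun _ _ _ _ h => by linarith)
    (by fun_prop) (by simpa using h)
  simpa [Function.comp_def] using this

theorem ed_le_len (h : Crv E U γ a b) : ed g U (γ a) (γ b) ≤ len g γ a b := by
  have e1 : (b - a) * 0 + a = a := by ring
  have e2 : (b - a) * 1 + a = b := by ring
  obtain ⟨h1, h2⟩ := Crv.affine (γ := γ) (U := U) (a := 0) (b := 1) (c := b - a) (t := a)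
    (by rwa [e1, e2]) (sub_nonneg.2 h.le) zero_le_one
  rw [e1, e2] at h2
  rw [← h2 g]
  exact iInf_le_of_le _ (iInf_le_of_le h1 (iInf_le_of_le (congrArg γ e1)
    (iInf_le _ (congrArg γ e2))))

theorem ed_lt_iff {r : ℝ≥0∞} : ed g U x y < r ↔
    ∃ γ, Crv E U γ 0 1 ∧ γ 0 = x ∧ γ 1 = y ∧ len g γ 0 1 < r := by
  simp only [ed, iInf_lt_iff, exists_prop]

theorem le_ed {r : ℝ≥0∞} (h : ∀ γ, Crv E U γ 0 1 → γ 0 = x → γ 1 = y → r ≤ len g γ 0 1) :
    r ≤ ed g U x y := le_iInf fun γ => le_iInf fun a => le_iInf fun b => le_iInf (h γ a b)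

theorem mem_of_ed_ne (h : ed g U x y ≠ ⊤) : x ∈ U ∧ y ∈ U := by
  obtain ⟨γ, h1, rfl, rfl, -⟩ := ed_lt_iff.1 h.lt_top
  exact ⟨h1.left, h1.right⟩

theorem ed_self (hx : x ∈ U) : ed g U x x = 0 :=
  le_zero_iff.1 ((ed_le_len (crv_const hx le_rfl (a := 0))).trans_eq len_self)

theorem ed_comm : ed g U x y = ed g U y x := by
  have H : ∀ x y, ed g U y x ≤ ed g U x y := fun x y => le_ed fun γ h h0 h1 => by
    have := (ed_le_len h.rev.1).trans_eq (h.rev.2 g)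
    simpa [h0, h1] using this
  exact le_antisymm (H y x) (H x y)

/-- a reparametrisation that is constant near the ends -/
theorem Crv.flat (h : Crv E U γ a b) {a' b' : ℝ} (hab : a' < b') :
    ∃ δ : ℝ → M, ContMDiff 𝓘(ℝ, ℝ) 𝓘(ℝ, E) 1 δ ∧ (∀ s, δ s ∈ γ '' Icc a b) ∧
      (∀ᶠ s in 𝓝 a', δ s = γ a) ∧ (∀ᶠ s in 𝓝 b', δ s = γ b) ∧
      ∀ g : Ten E M, len g δ a' b' = len g γ a b := by
  obtain ⟨p, p1, p2⟩ := exists_between hab
  obtain ⟨q, q1, q2⟩ := exists_between p2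
  obtain ⟨η, hη⟩ : ∃ η : ℝ → ℝ, η = fun s =>
    a + (b - a) * Real.smoothTransition ((q - p)⁻¹ * (s - p)) := ⟨_, rfl⟩
  have ba := sub_nonneg.2 h.le
  have A : ∀ s, s < p → η s = a := fun s hs => by
    rw [hη]; beta_reduce
    rw [Real.smoothTransition.zero_of_nonpos (mul_nonpos_of_nonneg_of_nonpos
      (by simpa using q1.le) (by linarith))]; ring
  have B : ∀ s, q < s → η s = b := fun s hs => by
    rw [hη]; beta_reduce
    rw [Real.smoothTransition.one_of_one_le (by rw [inv_mul_eq_div, one_le_div₀] <;> linarith)]; ring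
  have C : ∀ s, η s ∈ Icc a b := fun s => by
    have h1 := Real.smoothTransition.nonneg ((q - p)⁻¹ * (s - p))
    have h2 := Real.smoothTransition.le_one ((q - p)⁻¹ * (s - p))
    rw [hη]; constructor <;> nlinarith
  have D : ContDiff ℝ 1 η := by rw [hη]; fun_prop
  refine ⟨γ ∘ η, h.diff.comp_contMDiff D.contMDiff C, fun s => mem_image_of_mem _ (C s),
    (Iio_mem_nhds p1 : _ ∈ _) |> (mem_of_superset · fun s hs => congrArg γ (A s hs)),
    (Ioi_mem_nhds q2 : _ ∈ _) |> (mem_of_superset · fun s hs => congrArg γ (B s hs)), fun g => ?_⟩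
  have := len_comp_mono (g := g) (γ := γ) (U := U) (φ := η) hab.le (Monotone.monotoneOn (by
    rw [hη]
    intro s s' hs
    have : (q - p)⁻¹ * (s - p) ≤ (q - p)⁻¹ * (s' - p) := by gcongr
    have := Real.smoothTransition.monotone this
    dsimp only; gcongr) _) (D.differentiable one_ne_zero).differentiableOn
    (by rwa [A _ p1, B _ q2])
  rwa [A _ p1, B _ q2] at this

/-- concatenation -/
theorem Crv.concat (h : Crv E U γ a b) {a' b' : ℝ} (h' : Crv E U γ' a' b') (he : γ b = γ' a') :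
    ∃ δ : ℝ → M, Crv E U δ 0 2 ∧ δ 0 = γ a ∧ δ 2 = γ' b' ∧
      (∀ s, δ s ∈ γ '' Icc a b ∪ γ' '' Icc a' b') ∧
      ∀ g : Ten E M, len g δ 0 2 = len g γ a b + len g γ' a' b' := by
  obtain ⟨δ, d1, d2, d3, d4, d5⟩ := h.flat zero_lt_one
  obtain ⟨ε, e1, e2, e3, e4, e5⟩ := h'.flat one_lt_two
  have m : ∀ s, piecewise (Iic 1) δ ε s ∈ γ '' Icc a b ∪ γ' '' Icc a' b' := fun s => by
    unfold piecewise; split_ifs
    exacts [Or.inl (d2 s), Or.inr (e2 s)]
  refine ⟨piecewise (Iic 1) δ ε, ⟨zero_le_two, (d1.piecewise_Iic e1 ?_).contMDiffOn, fun s _ =>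
    (m s).elim (fun ⟨t, h1, h2⟩ => h2 ▸ h.mem h1) fun ⟨t, h1, h2⟩ => h2 ▸ h'.mem h1⟩,
    by simpa using d3.self_of_nhds, by simpa using e4.self_of_nhds, m, fun g => ?_⟩
  · filter_upwards [d4, e3] with s h1 h2 using by rw [h1, h2, he]
  · rw [← len_add zero_le_one one_le_two, ← d5, ← e5]
    congr 1 <;> refine len_congr fun s hs => ?_
    exacts [if_pos hs.2.le, if_neg (not_le.2 hs.1)]

theorem ed_triangle (x y z : M) : ed g U x z ≤ ed g U x y + ed g U y z := by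
  refine le_of_forall_gt fun r hr => ?_
  obtain ⟨u, hu, v, hv, huv⟩ := ENNReal.exists_add_lt_of_add_lt hr
  obtain ⟨γ, h1, rfl, h3, h4⟩ := ed_lt_iff.1 hu
  obtain ⟨γ', h5, h6, rfl, h8⟩ := ed_lt_iff.1 hv
  obtain ⟨δ, d1, d2, d3, -, d5⟩ := h1.concat h5 (h3.trans h6.symm)
  rw [← d2, ← d3]
  exact ((ed_le_len d1).trans_eq (d5 g)).trans_lt ((ENNReal.add_lt_add h4 h8).trans huv)

theorem ed_anti (h : V ⊆ U) : ed g U x y ≤ ed g V x y :=
  le_ed fun γ h1 h2 h3 => h2 ▸ h3 ▸ ed_le_len (h1.of_mem (h1.mem.mono_right h))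

theorem Crv.ed_le (h : Crv E U γ a b) {s : ℝ} (hs : s ∈ Icc a b) (ht : t ∈ Icc a b) :
    ed g U (γ s) (γ t) ≤ len g γ a b := by
  rcases le_total s t with h1 | h1
  · exact (ed_le_len (h.mono hs.1 h1 ht.2)).trans (len_mono hs.1 ht.2)
  · exact ed_comm.trans_le ((ed_le_len (h.mono ht.1 h1 hs.2)).trans (len_mono ht.1 hs.2))

theorem mul_ed {C : ℝ≥0∞} (hC : C ≠ ⊤) {r : ℝ≥0∞} (hne : C = 0 → ed g U x y ≠ ⊤ ∨ r = 0)
    (h : ∀ γ, Crv E U γ 0 1 → γ 0 = x → γ 1 = y → r ≤ C * len g γ 0 1) : r ≤ C * ed g U x y := by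
  by_cases h0 : C = 0
  · rcases hne h0 with h1 | h1
    · obtain ⟨γ, a1, a2, a3, -⟩ := ed_lt_iff.1 h1.lt_top
      simpa [h0] using h γ a1 a2 a3
    · simp [h1]
  · rw [← ENNReal.inv_mul_le_iff h0 hC]
    exact le_ed fun γ a1 a2 a3 => (ENNReal.inv_mul_le_iff h0 hC).2 (h γ a1 a2 a3)

/-- a map that expands the metric at most by `C` -/
theorem ed_map_le {f : N → M} {W : Set N} {h : Ten E N} (hW : IsOpen W)
    (hf : ContMDiffOn 𝓘(ℝ, E) 𝓘(ℝ, E) 1 f W) (hU : MapsTo f W U) {C : ℝ} (hC : 0 < C)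
    (hle : ∀ x ∈ W, ∀ v, comap f g x v v ≤ C ^ 2 * h x v v) (x y : N) :
    ed g U (f x) (f y) ≤ ENNReal.ofReal C * ed h W x y :=
  mul_ed ENNReal.ofReal_ne_top (fun h => absurd h (by simpa using hC)) fun γ h1 h2 h3 => by
    rw [← h2, ← h3]
    refine (ed_le_len (h1.map hf hU)).trans ((len_map h1 fun x hx =>
      (hf.contMDiffAt (hW.mem_nhds hx)).mdifferentiableAt one_ne_zero).trans_le
        (len_le hC.le fun t ht => ?_))
    rw [spd, spd, ← Real.sqrt_sq hC.le, ← Real.sqrt_mul (sq_nonneg _)]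
    exact Real.sqrt_le_sqrt (hle _ (h1.mem (Ioo_subset_Icc_self ht)) _)

theorem spd_le {C : ℝ} (hC : 0 ≤ C) (hle : ∀ v, g (γ t) v v ≤ C ^ 2 * h (γ t) v v) :
    spd g γ t ≤ C * spd h γ t := by
  rw [spd, spd, ← Real.sqrt_sq hC, ← Real.sqrt_mul (sq_nonneg _)]
  exact Real.sqrt_le_sqrt (hle _)

/-- comparison of two metrics -/
theorem ed_le_mul {C : ℝ} (hC : 0 < C) (hle : ∀ x ∈ U, ∀ v, g x v v ≤ C ^ 2 * h x v v) (x y : M) :
    ed g U x y ≤ ENNReal.ofReal C * ed h U x y :=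
  mul_ed ENNReal.ofReal_ne_top (fun h => absurd h (by simpa using hC)) fun γ h1 h2 h3 =>
    h2 ▸ h3 ▸ (ed_le_len h1).trans
      (len_le hC.le fun t ht => spd_le hC.le (hle _ (h1.mem (Ioo_subset_Icc_self ht))))

theorem ed_mono (hle : ∀ x ∈ U, ∀ v, g x v v ≤ h x v v) (x y : M) : ed g U x y ≤ ed h U x y := by
  simpa using ed_le_mul one_pos (by simpa using hle) x y

theorem ed_congr (he : EqOn g h U) : ed g U = ed h U := funext fun x => funext fun y =>
  le_antisymm (ed_mono (fun x hx v => by rw [he hx]) x y) (ed_mono (fun x hx v => by rw [he hx]) x y)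

theorem len_smul {C : ℝ} (hC : 0 ≤ C) : len (C ^ 2 • g) γ a b = ENNReal.ofReal C * len g γ a b := by
  rw [len, len, ← lintegral_const_mul' _ _ ENNReal.ofReal_ne_top]
  refine lintegral_congr fun t => ?_
  rw [← ENNReal.ofReal_mul hC, spd, spd, ← Real.sqrt_sq hC, ← Real.sqrt_mul (sq_nonneg _),
    Real.sqrt_sq hC]
  rfl

theorem ed_smul {C : ℝ} (hC : 0 < C) (x y : M) :
    ed (C ^ 2 • g) U x y = ENNReal.ofReal C * ed g U x y := by
  refine le_antisymm (ed_le_mul hC (fun _ _ _ => le_rfl) x y) ?_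
  have h0 : ENNReal.ofReal C ≠ 0 := by simpa using hC
  refine le_ed fun γ h1 h2 h3 => ?_
  rw [len_smul hC.le, ← h2, ← h3]
  exact mul_le_mul_right (ed_le_len h1) _

/-- comparison that is only known on a ball -/
theorem ed_le_mul_of_ball {C : ℝ} (hC : 0 < C) {r : ℝ≥0∞}
    (hle : ∀ z, ed h U x z < r → ∀ v, g z v v ≤ C ^ 2 * h z v v) (hy : ed h U x y < r) :
    ed g U x y ≤ ENNReal.ofReal C * ed h U x y := by
  have h0 : ENNReal.ofReal C ≠ 0 := by simpa using hC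
  rw [← ENNReal.inv_mul_le_iff h0 ENNReal.ofReal_ne_top]
  refine le_of_forall_gt fun s hs => ?_
  obtain ⟨γ, h1, rfl, rfl, h4⟩ := ed_lt_iff.1 (lt_min hs hy)
  refine lt_of_le_of_lt ((ENNReal.inv_mul_le_iff h0 ENNReal.ofReal_ne_top).2 ((ed_le_len h1).trans
    (len_le hC.le fun t ht => spd_le hC.le (hle _ ?_)))) (h4.trans_le (min_le_left _ _))
  exact (h1.ed_le ⟨le_rfl, zero_le_one⟩ (Ioo_subset_Icc_self ht)).trans_lt
    (h4.trans_le (min_le_right _ _))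

/-- short curves stay in the ball: the distance from the centre is computed in the ball -/
theorem ed_ball {r : ℝ≥0∞} (hV : ∀ z, ed g U x z < r → z ∈ V) (hy : ed g U x y < r) :
    ed g V x y ≤ ed g U x y := by
  refine le_of_forall_gt fun s hs => ?_
  obtain ⟨γ, h1, rfl, rfl, h4⟩ := ed_lt_iff.1 (lt_min hs hy)
  exact (ed_le_len (h1.of_mem fun t ht => hV _ ((h1.ed_le ⟨le_rfl, zero_le_one⟩ ht).trans_lt
    (h4.trans_le (min_le_right _ _))))).trans_lt (h4.trans_le (min_le_left _ _))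

/-- a function whose derivative along curves is bounded by the speed is Lipschitz -/
theorem enorm_le_len {F : Type} [NormedAddCommGroup F] [NormedSpace ℝ F] {φ : ℝ → F} {C : ℝ}
    (hC : 0 ≤ C) (hab : a ≤ b) (hφ : ContDiffOn ℝ 1 φ (Icc a b))
    (hs : ∀ t ∈ Ioo a b, ‖deriv φ t‖ ≤ C * spd g γ t) :
    ‖φ b - φ a‖ₑ ≤ ENNReal.ofReal C * len g γ a b := by
  refine (enorm_sub_le_lintegral_deriv_of_contDiffOn_Icc hφ hab).trans ?_
  rw [len, ← lintegral_const_mul' _ _ ENNReal.ofReal_ne_top, ← restrict_Ioo_eq_restrict_Icc]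
  exact setLIntegral_mono' measurableSet_Ioo fun t ht => by
    rw [← ENNReal.ofReal_mul hC, ← ofReal_norm_eq_enorm]; exact ENNReal.ofReal_le_ofReal (hs t ht)

/-- the differential of a vector valued function -/
def mdF (E : Type) [NormedAddCommGroup E] [NormedSpace ℝ E] {M : Type} [TopologicalSpace M]
    [ChartedSpace E M] {F : Type} [NormedAddCommGroup F] [NormedSpace ℝ F] (φ : M → F) (x : M) :
    E →L[ℝ] F := mfderiv 𝓘(ℝ, E) 𝓘(ℝ, F) φ x

theorem lip_of_mfderiv {F : Type} [NormedAddCommGroup F] [NormedSpace ℝ F] {φ : M → F}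
    (hU : IsOpen U) (hφ : ContMDiffOn 𝓘(ℝ, E) 𝓘(ℝ, F) 1 φ U) {C : ℝ} (hC : 0 < C)
    (hd : ∀ x ∈ U, ∀ v : E, ‖mdF E φ x v‖ ≤ C * √(g x v v)) (x y : M) :
    ‖φ y - φ x‖ₑ ≤ ENNReal.ofReal C * ed g U x y :=
  mul_ed ENNReal.ofReal_ne_top (fun h => absurd h (by simpa using hC)) fun γ h1 h2 h3 => by
    rw [← h2, ← h3]
    refine enorm_le_len (φ := φ ∘ γ) hC.le zero_le_one
      (contMDiffOn_iff_contDiffOn.1 (hφ.comp h1.diff h1.mem)) fun t ht => ?_
    have h4 := h1.mem (Ioo_subset_Icc_self ht)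
    have h5 := mfderiv_comp t ((hφ.contMDiffAt (hU.mem_nhds h4)).mdifferentiableAt one_ne_zero)
      (h1.dat ht)
    rw [mfderiv_eq_fderiv] at h5
    exact le_of_eq_of_le (congrArg (fun L : ℝ →L[ℝ] F => ‖L 1‖) h5) (hd _ h4 _)

end Vale.Agent.P216R
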