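import Vale.Agent.P216B.Len
import Vale.Agent.P216R.Met

/-! Intermediate points, curves leaving a compact set, distances in the model space. -/

set_option linter.all false

open scoped Manifold ContDiff Topology ENNReal
open Set MeasureTheory Filter

noncomputable section

namespace Vale.Agent.P216R

open Vale.Agent.P219.RG

variable {E : Type} [NormedAddCommGroup E] [NormedSpace ℝ E]
  {M : Type} [TopologicalSpace M] [ChartedSpace E M]
  {N : Type} [TopologicalSpace N] [ChartedSpace E N]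
  {g h : Ten E M} {U V W K : Set M} {γ γ' : ℝ → M} {a b c t : ℝ} {x y z : M}

/-- squeeze in `ℝ≥0∞` -/
theorem tendsto_of_add {α : Type*} {l : Filter α} {f e : α → ℝ≥0∞} {d : ℝ≥0∞}
    (he : Tendsto e l (𝓝 0)) (h1 : ∀ᶠ p in l, f p ≤ d + e p) (h2 : ∀ᶠ p in l, d ≤ f p + e p) :
    Tendsto f l (𝓝 d) := by
  refine tendsto_of_tendsto_of_tendsto_of_le_of_le' (g := fun p => d - e p) ?_ ?_
    (h2.mono fun p hp => tsub_le_iff_right.2 hp) h1
  · simpa using ENNReal.Tendsto.sub (tendsto_const_nhds (x := d)) he (Or.inr ENNReal.zero_ne_top)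
  · simpa using (tendsto_const_nhds (x := d)).add he

theorem tendsto_len (hf : len g γ a b ≠ ⊤) (ht : t ∈ Icc a b) :
    Tendsto (fun s => len g γ (min s t) (max s t)) (𝓝[Icc a b] t) (𝓝 0) := by
  have h1 : Tendsto ((volume.restrict (Ioo a b) : Measure ℝ) ∘ fun s => Ioo (min s t) (max s t))
      (𝓝[Icc a b] t) (𝓝 0) := by
    have h2 : Continuous fun s => ENNReal.ofReal (max s t - min s t) :=
      ENNReal.continuous_ofReal.comp (by fun_prop)
    refine tendsto_of_tendsto_of_tendsto_of_le_of_le tendsto_const_nhds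
      (by simpa using (h2.tendsto t).mono_left nhdsWithin_le_nhds) (fun _ => zero_le) fun s => ?_
    exact (Measure.restrict_apply_le _ _).trans_eq Real.volume_Ioo
  refine (tendsto_setLIntegral_zero hf h1).congr' ?_
  filter_upwards [self_mem_nhdsWithin] with s hs
  rw [Measure.restrict_restrict measurableSet_Ioo, inter_eq_left.2
    (Ioo_subset_Ioo (le_min hs.1 ht.1) (max_le hs.2 ht.2))]
  rfl

theorem continuousOn_len (hf : len g γ a b ≠ ⊤) : ContinuousOn (len g γ a) (Icc a b) := by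
  have H : ∀ s ∈ Icc a b, ∀ t ∈ Icc a b, len g γ a s ≤ len g γ a t + len g γ (min s t) (max s t) :=
    fun s hs t ht => by
      rcases le_total s t with h | h
      · exact (len_mono le_rfl h).trans le_self_add
      · rw [min_eq_right h, max_eq_left h, len_add ht.1 h]
  refine fun t ht => tendsto_of_add (tendsto_len hf ht) ?_ ?_ <;>
    filter_upwards [self_mem_nhdsWithin] with s hs
  · exact H s hs t ht
  · rw [min_comm, max_comm]; exact H t ht s hs

/-- the distance from a point is continuous along a curve of finite length -/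
theorem Crv.continuousOn_ed (h : Crv E U γ a b) (hf : len g γ a b ≠ ⊤) (x : M) :
    ContinuousOn (fun t => ed g U x (γ t)) (Icc a b) := by
  refine fun t ht => tendsto_of_add (tendsto_len hf ht) ?_ ?_ <;>
    filter_upwards [self_mem_nhdsWithin] with s hs
  all_goals
    have h1 := h.mono (le_min hs.1 ht.1) min_le_max (max_le hs.2 ht.2)
    refine (ed_triangle _ _ _).trans (add_le_add le_rfl (h1.ed_le ?_ ?_)) <;> simp

/-- intermediate points, sharp form -/
theorem exists_mid {r s : ℝ≥0∞} (hr : ed g U x y < r) (hs : s ≤ ed g U x y) :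
    ∃ z, ed g U x z = s ∧ s + ed g U z y < r := by
  obtain ⟨γ, h1, rfl, rfl, h4⟩ := ed_lt_iff.1 hr
  obtain ⟨t, ht, e⟩ := intermediate_value_Icc zero_le_one (h1.continuousOn_ed h4.ne_top (γ 0))
    (show s ∈ _ from ⟨(ed_self h1.left).trans_le zero_le, hs⟩)
  refine ⟨γ t, e, lt_of_le_of_lt ?_ h4⟩
  rw [← len_add ht.1 ht.2, ← e]
  exact add_le_add (ed_le_len (h1.mono le_rfl ht.1 ht.2)) (ed_le_len (h1.mono ht.1 ht.2 le_rfl))

theorem mid {s t : ℝ≥0∞} (h : ed g U x y < s + t) : ∃ z, ed g U x z ≤ s ∧ ed g U z y ≤ t := by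
  rcases le_total s (ed g U x y) with h1 | h1
  · obtain ⟨z, h2, h3⟩ := exists_mid h h1
    exact ⟨z, h2.le, (lt_of_add_lt_add_left h3).le⟩
  · exact ⟨y, h1, (ed_self (mem_of_ed_ne h.ne_top).2).trans_le zero_le⟩

theorem exists_mid_real {L d ε : ℝ} (hL : ed g U x y = ENNReal.ofReal L) (h0 : 0 ≤ d) (hd : d ≤ L)
    (hε : 0 < ε) :
    ∃ z, ed g U x z = ENNReal.ofReal d ∧ ed g U z y ≤ ENNReal.ofReal (L - d + ε) := by
  obtain ⟨z, h1, h2⟩ := exists_mid (r := ENNReal.ofReal d + ENNReal.ofReal (L - d + ε))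
    (s := ENNReal.ofReal d) (g := g) (U := U) (x := x) (y := y)
    (by rw [hL, ← ENNReal.ofReal_add h0 (by linarith), ENNReal.ofReal_lt_ofReal_iff] <;> linarith)
    (hL ▸ ENNReal.ofReal_le_ofReal hd)
  exact ⟨z, h1, (lt_of_add_lt_add_left h2).le⟩

theorem exists_compact_ed_lt {r : ℝ≥0∞} (h : ed g U x y < r) :
    ∃ K, IsCompact K ∧ K ⊆ U ∧ ∀ V, K ⊆ V → ed g V x y < r := by
  obtain ⟨γ, h1, rfl, rfl, h4⟩ := ed_lt_iff.1 h
  exact ⟨γ '' Icc 0 1, isCompact_Icc.image_of_continuousOn h1.cont, h1.mem.image_subset,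
    fun V hV => (ed_le_len (h1.of_mem fun t ht => hV (mem_image_of_mem _ ht))).trans_lt h4⟩

theorem joinedIn_of_ed_ne (h : ed g U x y ≠ ⊤) : JoinedIn U x y := by
  obtain ⟨γ, h1, rfl, rfl, -⟩ := ed_lt_iff.1 h.lt_top
  exact JoinedIn.ofLine h1.cont rfl rfl h1.mem.image_subset

theorem isPathConnected_ball {r : ℝ≥0∞} (hx : x ∈ U) (hr : 0 < r) :
    IsPathConnected {y | ed g U x y < r} :=
  ⟨x, (ed_self hx).trans_lt hr, fun y hy => joinedIn_of_ed_ne
    ((ed_ball (g := g) (fun _ h => h) hy).trans_lt hy).ne_top⟩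

/-! ### leaving a compact set -/

theorem Hs.compl_mem (hU : Hs U) (hK : IsCompact K) (hKU : K ⊆ U) (hx : x ∈ U) (hn : x ∉ K) :
    Kᶜ ∈ 𝓝 x :=
  disjoint_principal_left.1 ((hK.disjoint_nhdsSet_left.2 fun y hy =>
    hU (hKU hy) hx fun e => hn (e ▸ hy)).mono_left principal_le_nhdsSet)

theorem Hs.isOpen_diff (hU : Hs U) (ho : IsOpen U) (hK : IsCompact K) (hKU : K ⊆ U) :
    IsOpen (U \ K) :=
  isOpen_iff_mem_nhds.2 fun _ hx => inter_mem (ho.mem_nhds hx.1) (hU.compl_mem hK hKU hx.1 hx.2)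

theorem Hs.eq_of_tendsto {α : Type*} {l : Filter α} [l.NeBot] (hU : Hs U) {f : α → M} (hx : x ∈ U)
    (hy : y ∈ U) (h1 : Tendsto f l (𝓝 x)) (h2 : Tendsto f l (𝓝 y)) : x = y :=
  by_contra fun h => (h1.disjoint (hU hx hy h) h2 |> disjoint_self.1 |> NeBot.ne ‹_›)

theorem Hs.t2 (hU : Hs U) : T2Space U := t2Space_iff_disjoint_nhds.2 fun x y h =>
  (continuous_subtype_val.tendsto x).disjoint (hU x.2 y.2 fun e => h (Subtype.ext e))
    (continuous_subtype_val.tendsto y)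

/-- a curve that cannot leave `K` while it is in the open neighbourhood `W` stays in `K` -/
theorem Hs.stay (hU : Hs U) (hK : IsCompact K) (hW : IsOpen W) (hKW : K ⊆ W) (hKU : K ⊆ U)
    (hc : ContinuousOn γ (Icc a b)) (hm : MapsTo γ (Icc a b) U) (ha : γ a ∈ K)
    (h : ∀ t ∈ Icc a b, MapsTo γ (Icc a t) W → γ t ∈ K) : MapsTo γ (Icc a b) K := by
  refine IsClosed.Icc_subset_of_forall_mem_nhdsGT_of_Icc_subset (s := γ ⁻¹' K) ?_ ha
    fun t ht hs => ?_
  · refine isClosed_of_closure_subset fun t ht => ?_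
    have h1 : t ∈ Icc a b := closure_minimal inter_subset_right isClosed_Icc ht
    refine ⟨by_contra fun hn => ?_, h1⟩
    have h2 := hc t h1 (hU.compl_mem hK hKU (hm h1) hn)
    obtain ⟨s, s1, s2⟩ := (mem_closure_iff_nhdsWithin_neBot.1 ht).nonempty_of_mem
      (inter_mem (nhdsWithin_mono _ inter_subset_right h2) self_mem_nhdsWithin)
    exact s1 s2.1
  · have h1 := hc t (Ico_subset_Icc_self ht) (hW.mem_nhds (hKW (hs ⟨ht.1, le_rfl⟩)))
    have h2 : γ ⁻¹' W ∩ Icc a b ∈ 𝓝[>] t :=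
      nhdsWithin_le_of_mem (Icc_mem_nhdsGT_of_mem ht) (inter_mem h1 self_mem_nhdsWithin)
    obtain ⟨u, hu, h3⟩ := (mem_nhdsGT_iff_exists_Ioc_subset).1 h2
    filter_upwards [Ioc_mem_nhdsGT hu] with s h4
    refine h s (h3 h4).2 fun p hp => ?_
    rcases le_or_gt p t with h5 | h5
    exacts [hKW (hs ⟨hp.1, h5⟩), (h3 ⟨h5, hp.2.trans h4.2⟩).1]

/-- if the ball of the open set `W` lies in a compact set, so does the ball of `U` -/
theorem Hs.ball_subset (hU : Hs U) (hK : IsCompact K) (hW : IsOpen W) (hKW : K ⊆ W) (hKU : K ⊆ U)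
    {r : ℝ≥0∞} (hx : x ∈ W) (h : ∀ z, ed g W x z < r → z ∈ K) (hy : ed g U x y < r) :
    y ∈ K ∧ ed g W x y ≤ ed g U x y := by
  have H : ∀ y, ed g U x y < r → y ∈ K := fun y hy => by
    obtain ⟨γ, h1, rfl, rfl, h4⟩ := ed_lt_iff.1 hy
    exact hU.stay hK hW hKW hKU h1.cont h1.mem (h _ ((ed_self hx).trans_lt (zero_le.trans_lt h4)))
      (fun t ht hm => h _ (((ed_le_len ((h1.mono le_rfl ht.1 ht.2).of_mem hm)).trans
        (len_mono le_rfl ht.2)).trans_lt h4)) ⟨zero_le_one, le_rfl⟩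
  exact ⟨H y hy, ed_ball (fun z hz => hKW (H z hz)) hy⟩

/-! ### the model space -/

section Model

variable {G : E → Bil E} {S : Set E} {p q : E}

theorem crv_line (hS : segment ℝ p q ⊆ S) : Crv E S (fun t : ℝ => p + t • (q - p)) 0 1 :=
  ⟨zero_le_one, ContDiffOn.contMDiffOn (by fun_prop), fun t ht => hS (by
    rw [segment_eq_image']; exact mem_image_of_mem _ ht)⟩

theorem vel_line (p v : E) (t : ℝ) : vel E (fun t : ℝ => p + t • v) t = v := by
  rw [vel_model]
  simpa using (((hasDerivAt_id t).smul_const v).const_add p).deriv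

theorem ed_le_of_segment (hS : segment ℝ p q ⊆ S) {l : ℝ}
    (h : ∀ u ∈ segment ℝ p q, √(G u (q - p) (q - p)) ≤ l) : ed G S p q ≤ ENNReal.ofReal l := by
  have := (ed_le_len (g := G) (crv_line hS)).trans (len_le_const (C := l) fun t ht => by
    rw [spd, vel_line]
    exact h _ ((crv_line subset_rfl).mem (Ioo_subset_Icc_self ht)))
  simpa using this

theorem sqrt_le_of {x y C : ℝ} (hC : 0 ≤ C) (h : x ≤ C ^ 2 * y) : √x ≤ C * √y := by
  rw [← Real.sqrt_sq hC, ← Real.sqrt_mul (sq_nonneg _)]; exact Real.sqrt_le_sqrt h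

theorem ed_le_form (hS : Convex ℝ S) (hp : p ∈ S) (hq : q ∈ S) {B : Bil E} {C : ℝ} (hC : 0 ≤ C)
    (h : ∀ u ∈ S, ∀ v, G u v v ≤ C ^ 2 * B v v) :
    ed G S p q ≤ ENNReal.ofReal (C * √(B (p - q) (p - q))) :=
  ed_comm.trans_le (ed_le_of_segment (hS.segment_subset hq hp) fun u hu =>
    sqrt_le_of hC (h u (hS.segment_subset hq hp hu) _))

theorem ed_le_norm (hS : Convex ℝ S) (hp : p ∈ S) (hq : q ∈ S) {C : ℝ}
    (h : ∀ u ∈ S, ∀ v, G u v v ≤ C * ‖v‖ ^ 2) : ed G S p q ≤ ENNReal.ofReal (√C * ‖p - q‖) :=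
  ed_comm.trans_le (ed_le_of_segment (hS.segment_subset hq hp) fun u hu =>
    (Real.sqrt_le_sqrt (h u (hS.segment_subset hq hp hu) _)).trans_eq (by
      rw [Real.sqrt_mul' _ (sq_nonneg _), Real.sqrt_sq (norm_nonneg _)]))

theorem lin_le_ed {F : Type} [NormedAddCommGroup F] [NormedSpace ℝ F] (L : E →L[ℝ] F)
    (h : ∀ u ∈ S, ∀ v, ‖L v‖ ≤ √(G u v v)) (p q : E) : ‖L (p - q)‖ₑ ≤ ed G S p q :=
  ed_comm.ge.trans' <| le_ed fun γ h1 h2 h3 => by
    rw [← h2, ← h3, map_sub]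
    have := enorm_le_len (g := G) (γ := γ) (φ := L ∘ γ) zero_le_one zero_le_one
      (L.contDiff.comp_contDiffOn h1.diff.contDiffOn) fun t ht => by
        rw [(L.hasFDerivAt.comp_hasDerivAt t (h1.dat ht).differentiableAt.hasDerivAt).deriv, one_mul,
          spd, vel_model]
        exact h _ (h1.mem (Ioo_subset_Icc_self ht)) _
    simpa using this

theorem norm_le_ed {c : ℝ} (h : ∀ u ∈ S, ∀ v, c * ‖v‖ ^ 2 ≤ G u v v) (p q : E) :
    ENNReal.ofReal (√c * ‖p - q‖) ≤ ed G S p q := by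
  have e : ∀ v : E, ‖(√c • ContinuousLinearMap.id ℝ E) v‖ = √c * ‖v‖ := fun v => by
    simp [norm_smul, abs_of_nonneg]
  rw [← e, ofReal_norm_eq_enorm]
  refine lin_le_ed _ (fun u hu v => ?_) p q
  rw [e, ← Real.sqrt_sq (norm_nonneg v), ← Real.sqrt_mul' _ (sq_nonneg _)]
  exact Real.sqrt_le_sqrt (h u hu v)

theorem form_le_ed {B : Bil E} (hs : ∀ v w, B v w = B w v) (hn : ∀ v, 0 ≤ B v v)
    (h : ∀ u ∈ S, ∀ v, B v v ≤ G u v v) (p q : E) :
    ENNReal.ofReal √(B (p - q) (p - q)) ≤ ed G S p q := by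
  rcases (Real.sqrt_nonneg (B (p - q) (p - q))).eq_or_lt with h0 | h0
  · rw [← h0, ENNReal.ofReal_zero]; exact zero_le
  refine le_trans (le_of_eq ?_) (lin_le_ed ((√(B (p - q) (p - q)))⁻¹ • B (p - q))
    (fun u hu v => ?_) p q)
  · rw [← ofReal_norm_eq_enorm, smul_apply, smul_eq_mul, inv_mul_eq_div, Real.div_sqrt,
      Real.norm_of_nonneg h0.le]
  · rw [smul_apply, smul_eq_mul, norm_mul, Real.norm_of_nonneg (inv_nonneg.2 h0.le),
      inv_mul_le_iff₀ h0]
    refine le_trans (abs_le.2 ⟨?_, cs_form B hs hn _ _⟩)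
      (mul_le_mul_of_nonneg_left (Real.sqrt_le_sqrt (h u hu v)) h0.le)
    have := cs_form B hs hn (p - q) (-v)
    simp only [map_neg, neg_apply, neg_neg] at this
    linarith

end Model

variable [IsManifold 𝓘(ℝ, E) ∞ M] [IsManifold 𝓘(ℝ, E) ∞ N] [FiniteDimensional ℝ E]

theorem comap_inv_le {f : N → M} {V : Set N} {g : Ten E N} [Nonempty N] (hf : LD E f V)
    (hi : InjOn f V) {l : ℝ} (hle : ∀ x ∈ V, ∀ v, g x v v ≤ l * comap f h x v v) :
    ∀ y ∈ f '' V, ∀ v, comap (Function.invFunOn f V) g y v v ≤ l * h y v v := by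
  intro y hy v
  have hk := hf.inverse hi
  have h1 : Function.invFunOn f V y ∈ V := Function.invFunOn_mem hy
  have h2 : comap (Function.invFunOn f V) (comap f h) y = h y := by
    rw [comap_comp h (hf.md h1) (hk.md hy), comap_congr h (f' := id), comap_id]
    filter_upwards [hk.isOpen.mem_nhds hy] with z hz using Function.invFunOn_eq hz
  rw [← h2]
  exact hle _ h1 _

/-- distances in the image of an injective local diffeomorphism -/
theorem ed_le_image {f : N → M} {V : Set N} {g : Ten E N} (hf : LD E f V) (hi : InjOn f V) {l : ℝ}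
    (hl : 0 < l) (hle : ∀ x ∈ V, ∀ v, g x v v ≤ l ^ 2 * comap f h x v v) {p q : N} (hp : p ∈ V)
    (hq : q ∈ V) : ed g V p q ≤ ENNReal.ofReal l * ed h (f '' V) (f p) (f q) := by
  have : Nonempty N := ⟨p⟩
  have hk := hf.inverse hi
  have := ed_map_le hk.isOpen (hk.smooth.of_le (by exact_mod_cast le_top))
    (fun y hy => Function.invFunOn_mem hy) hl (comap_inv_le hf hi hle) (f p) (f q)
  rwa [hi.leftInvOn_invFunOn hp, hi.leftInvOn_invFunOn hq] at this

theorem LD.ed_le {f : N → M} {V : Set N} (hf : LD E f V) (hm : MapsTo f V U) (p q : N) :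
    ed h U (f p) (f q) ≤ ed (comap f h) V p q := by
  simpa using ed_map_le hf.isOpen (hf.smooth.of_le (by exact_mod_cast le_top)) hm one_pos
    (h := comap f h) (by simp) p q

/-- an injective local diffeomorphism is an isometry onto its image -/
theorem ed_image {f : N → M} {V : Set N} (hf : LD E f V) (hi : InjOn f V) {p q : N} (hp : p ∈ V)
    (hq : q ∈ V) : ed h (f '' V) (f p) (f q) = ed (comap f h) V p q :=
  le_antisymm (hf.ed_le (mapsTo_image f V) p q)
    (by simpa using ed_le_image (g := comap f h) hf hi one_pos (by simp) hp hq)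

/-- pulling a ball back -/
theorem ed_pull {f : N → M} {V K : Set N} {g : Ten E N} (hf : LD E f V) (hi : InjOn f V)
    (hm : MapsTo f V U) (hU : Hs U) {l : ℝ} (hl : 0 < l)
    (hle : ∀ x ∈ V, ∀ v, g x v v ≤ l ^ 2 * comap f h x v v) (hK : IsCompact K) (hKV : K ⊆ V)
    {p : N} (hp : p ∈ V) {r : ℝ≥0∞} (hb : ∀ q, ed g V p q < ENNReal.ofReal l * r → q ∈ K)
    (hz : ed h U (f p) z < r) :
    ∃ q ∈ K, f q = z ∧ ed g V p q ≤ ENNReal.ofReal l * ed h U (f p) z := by
  obtain ⟨⟨q, hq, rfl⟩, h2⟩ := hU.ball_subset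
    (hK.image_of_continuousOn (hf.smooth.continuousOn.mono hKV))
    (hf.isOpen_image hf.isOpen subset_rfl) (image_mono hKV) ((hm.mono_left hKV).image_subset)
    (mem_image_of_mem f hp) (fun z hz => by
      obtain ⟨q, hq, rfl⟩ := (mem_of_ed_ne hz.ne_top).2
      exact mem_image_of_mem f (hb q ((ed_le_image hf hi hl hle hp hq).trans_lt
        (ENNReal.mul_lt_mul_right (by simpa using hl) ENNReal.ofReal_ne_top hz)))) hz
  exact ⟨q, hq, rfl, (ed_le_image hf hi hl hle hp (hKV hq)).trans (mul_le_mul_right h2 _)⟩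

theorem bl_pull {f : N → M} {V K : Set N} {g : Ten E N} (hf : LD E f V) (hi : InjOn f V)
    (hm : MapsTo f V U) (hU : Hs U) {l r : ℝ} (hl : 0 < l)
    (hle : ∀ x ∈ V, ∀ v, g x v v ≤ l ^ 2 * comap f h x v v) (hK : IsCompact K) (hKV : K ⊆ V)
    {p : N} (hp : p ∈ V) (hb : bl g V p (l * r) ⊆ K) :
    ∀ z ∈ bl h U (f p) r, ∃ q ∈ V, f q = z ∧ ed g V p q ≤ ENNReal.ofReal l * ed h U (f p) z :=
  fun z hz => (ed_pull hf hi hm hU hl hle hK hKV hp (fun q hq => hb (by
    rwa [← ENNReal.ofReal_mul hl.le] at hq)) hz).imp fun q hq => ⟨hKV hq.1, hq.2⟩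

end Vale.Agent.P216R
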