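import Vale.Agent.P216B.Top
import Vale.Agent.P216R.Nat

/-! Metric space structures, isometries, comparison on compact sets, gradients. -/

set_option linter.all false
set_option maxSynthPendingDepth 3

open scoped Manifold ContDiff Topology ENNReal
open Set MeasureTheory Filter

noncomputable section

namespace Vale.Agent.P216R

open Vale.Agent.P219.RG

variable {E : Type} [NormedAddCommGroup E] [NormedSpace ℝ E]
  {M : Type} [TopologicalSpace M] [ChartedSpace E M]
  {N : Type} [TopologicalSpace N] [ChartedSpace E N]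
  {g h : Ten E M} {U V W K : Set M} {γ γ' : ℝ → M} {a b c t r R : ℝ} {x y z : M}

/-- a connected Riemannian manifold -/
structure MS (g : Ten E M) (U : Set M) : Prop where
  met : Met g U
  hs : Hs U
  fin : ∀ x ∈ U, ∀ y ∈ U, ed g U x y ≠ ⊤

/-- the component of `x` -/
def cmp (g : Ten E M) (U : Set M) (x : M) : Set M := {y | ed g U x y < ⊤}

theorem cmp_subset : cmp g U x ⊆ U := fun _ h => (mem_of_ed_ne (ne_top_of_lt h)).2

theorem mem_cmp_self (hx : x ∈ U) : x ∈ cmp g U x := (ed_self hx).trans_lt ENNReal.zero_lt_top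

theorem bl_subset_cmp : bl g U x r ⊆ cmp g U x := fun y h => lt_top_of_lt (show ed g U x y < _ from h)

theorem ed_cmp (hy : y ∈ cmp g U x) (z : M) : ed g (cmp g U x) y z = ed g U y z := by
  refine le_antisymm ?_ (ed_anti cmp_subset)
  rcases eq_or_ne (ed g U y z) ⊤ with h | h
  · exact h ▸ le_top
  · exact ed_ball (fun w hw => (ed_ne_top_trans (ne_top_of_lt hy) hw.ne_top).lt_top) h.lt_top

theorem bl_cmp (hy : y ∈ cmp g U x) : bl g (cmp g U x) y r = bl g U y r := by
  simp only [bl, ed_cmp hy]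

theorem cbl_cmp (hy : y ∈ cmp g U x) : cbl g (cmp g U x) y r = cbl g U y r := by
  simp only [cbl, ed_cmp hy]

theorem Cpl.cmp (h : Cpl g U) : Cpl g (cmp g U x) := fun y hy r => by
  rw [cbl_cmp hy]; exact h y (cmp_subset hy) r

/-- the underlying metric space -/
def Sp (_ : MS g U) : Type := U

/-- the point of the manifold -/
def Sp.val {h : MS g U} (p : Sp h) : M := Subtype.val p

theorem Sp.prop {h : MS g U} (p : Sp h) : p.val ∈ U := Subtype.prop p

/-- a point of `U` as a point of the metric space -/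
def Sp.mk (h : MS g U) (x : M) (hx : x ∈ U) : Sp h := Subtype.mk x hx

@[simp] theorem Sp.val_mk (h : MS g U) (x : M) (hx : x ∈ U) : (Sp.mk h x hx).val = x := rfl

theorem Sp.ext {h : MS g U} {p q : Sp h} (e : p.val = q.val) : p = q := Subtype.ext e

/-- the underlying extended metric space -/
def ESp (_ : Met g U) (_ : Hs U) : Type := U

variable [FiniteDimensional ℝ E] [IsManifold 𝓘(ℝ, E) ∞ M]

theorem Met.ms (hg : Met g U) (hH : Hs U) (hc : IsPreconnected U) : MS g U :=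
  ⟨hg, hH, fun _ hx _ hy => hg.ed_ne_top hc subset_rfl hx hy⟩

theorem Met.ms_ball (hg : Met g U) (hH : Hs U) (x : M) (r : ℝ≥0∞) : MS g {y | ed g U x y < r} := by
  have h : {y | ed g U x y < r} ⊆ U := fun y hy => (mem_of_ed_ne (ne_top_of_lt hy)).2
  refine ⟨hg.mono (hg.isOpen_ball x r) h, hH.mono h, fun y hy z hz => ed_ne_top_trans (y := x)
    (ed_comm.trans_ne ?_) ?_⟩
  exacts [((ed_ball (fun _ h => h) hy).trans_lt hy).ne_top,
    ((ed_ball (fun _ h => h) hz).trans_lt hz).ne_top]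

theorem Met.ms_bl (hg : Met g U) (hH : Hs U) (x : M) (r : ℝ) : MS g (bl g U x r) :=
  hg.ms_ball hH x _

theorem Met.ms_cmp (hg : Met g U) (hH : Hs U) (x : M) : MS g (cmp g U x) := hg.ms_ball hH x _

theorem MS.isPreconnected (h : MS g U) : IsPreconnected U := by
  rcases U.eq_empty_or_nonempty with rfl | ⟨x, hx⟩
  · exact isPreconnected_empty
  · exact IsPathConnected.isConnected ⟨x, hx, fun y hy => joinedIn_of_ed_ne (h.fin x hx y hy)⟩ |>.2

/-- the extended metric, with the subspace topology -/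
abbrev Met.emet (hg : Met g U) (hH : Hs U) : EMetricSpace U :=
  { PseudoEMetricSpace.ofEDistOfTopology (fun x y : U => ed g U x y) (fun x => ed_self x.2)
      (fun _ _ => ed_comm) (fun _ _ _ => ed_triangle _ _ _) fun x => by
        rw [nhds_subtype_eq_comap]; exact (hg.hasBasis_ed hH x.2).comap _ with
    eq_of_edist_eq_zero := fun h => Subtype.ext (hg.eq_of_ed hH h) }

/-- the metric, with the subspace topology -/
abbrev MS.metric (h : MS g U) : MetricSpace U :=
  letI := h.met.emet h.hs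
  EMetricSpace.toMetricSpace fun x y => h.fin x x.2 y y.2

instance (hg : Met g U) (hH : Hs U) : EMetricSpace (ESp hg hH) := hg.emet hH

instance (h : MS g U) : MetricSpace (Sp h) := h.metric

theorem ESp.edist_eq {hg : Met g U} {hH : Hs U} (p q : ESp hg hH) :
    edist p q = ed g U p.1 q.1 := rfl

theorem ESp.emb (hg : Met g U) (hH : Hs U) :
    Topology.IsOpenEmbedding (Subtype.val : ESp hg hH → M) := hg.isOpen.isOpenEmbedding_subtypeVal

namespace Sp

variable {h : MS g U}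

theorem edist_eq (p q : Sp h) : edist p q = ed g U p.val q.val := rfl

theorem dist_eq (p q : Sp h) : dist p q = dd g U p.val q.val := rfl

theorem ne_top (p q : Sp h) : ed g U p.val q.val ≠ ⊤ := h.fin _ p.prop _ q.prop

theorem emb (h : MS g U) : Topology.IsOpenEmbedding (val : Sp h → M) :=
  h.met.isOpen.isOpenEmbedding_subtypeVal

theorem range_val (h : MS g U) : range (val : Sp h → M) = U := Subtype.range_coe

theorem mem_ball {p q : Sp h} : q ∈ Metric.ball p r ↔ q.val ∈ bl g U p.val r := by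
  rw [Metric.mem_ball', mem_bl_iff, dist_eq, and_iff_right (ne_top p q)]

theorem mem_closedBall {p q : Sp h} (hr : 0 ≤ r) :
    q ∈ Metric.closedBall p r ↔ q.val ∈ cbl g U p.val r := by
  rw [Metric.mem_closedBall', mem_cbl_iff hr, dist_eq, and_iff_right (ne_top p q)]

theorem image_ball (p : Sp h) (r : ℝ) : val '' Metric.ball p r = bl g U p.val r :=
  subset_antisymm (fun _ ⟨_, a, b⟩ => b ▸ mem_ball.1 a) fun y hy =>
    ⟨mk h y (bl_subset hy), mem_ball.2 hy, rfl⟩

theorem image_closedBall (p : Sp h) (hr : 0 ≤ r) :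
    val '' Metric.closedBall p r = cbl g U p.val r :=
  subset_antisymm (fun _ ⟨_, a, b⟩ => b ▸ (mem_closedBall hr).1 a) fun y hy =>
    ⟨mk h y (cbl_subset hy), (mem_closedBall hr).2 hy, rfl⟩

theorem isCompact_closedBall_iff (p : Sp h) (hr : 0 ≤ r) :
    IsCompact (Metric.closedBall p r) ↔ IsCompact (cbl g U p.val r) := by
  rw [(emb h).isEmbedding.isCompact_iff, image_closedBall p hr]

theorem isCompact_closedBall (p : Sp h) (hc : Cpt g U p.val R) (hr : r < R) :
    IsCompact (Metric.closedBall p r) := by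
  rcases lt_or_ge r 0 with h0 | h0
  · rw [Metric.closedBall_eq_empty.2 h0]; exact isCompact_empty
  · exact (isCompact_closedBall_iff p h0).2 (hc r hr)

theorem proper (h : MS g U) (hc : Cpl g U) : ProperSpace (Sp h) :=
  ⟨fun p r => isCompact_closedBall p (hc.cpt p.prop (r + 1)) (lt_add_one r)⟩

theorem cpl (h : MS g U) [ProperSpace (Sp h)] : Cpl g U := fun x hx r =>
  h.met.isCompact_cbl ((isCompact_closedBall_iff (mk h x hx) (le_max_right r 0)).1
    (ProperSpace.isCompact_closedBall _ _)) cbl_subset (cbl_mono (le_max_left _ _))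

theorem compactSpace (h : MS g U) (hc : IsCompact U) : CompactSpace (Sp h) :=
  isCompact_iff_compactSpace.1 hc

theorem exists_mid (p q : Sp h) {d ε : ℝ} (h0 : 0 ≤ d) (hd : d ≤ dist p q) (hε : 0 < ε) :
    ∃ m : Sp h, dist p m = d ∧ dist m q ≤ dist p q - d + ε :=
  let ⟨z, a, _, b, c⟩ := exists_mid_dd (ne_top p q) h0 hd hε
  ⟨mk h z (mem_of_ed_ne a).2, b, c⟩

end Sp

/-- exact intermediate points -/
theorem Met.exists_mid (hg : Met g U) {d : ℝ} (hc : IsCompact (cbl g U x d)) (hf : ed g U x y ≠ ⊤)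
    (hd : ENNReal.ofReal d ≤ ed g U x y) :
    ∃ z, ed g U x z = ENNReal.ofReal d ∧ ENNReal.ofReal d + ed g U z y = ed g U x y := by
  obtain ⟨z, h1, -⟩ := P216R.exists_mid hf.lt_top hd
  obtain ⟨z, h2, h3⟩ := (hg.isCompact_ge hc x (ENNReal.ofReal d)).exists_isMinOn
    ⟨z, h1.le, h1.ge⟩ ((hg.continuousOn_ed y).mono (inter_subset_left.trans cbl_subset))
  have h4 : ed g U x z = ENNReal.ofReal d := le_antisymm h2.1 h2.2
  refine ⟨z, h4, le_antisymm (le_of_forall_gt fun s hs => ?_) (h4 ▸ ed_triangle x z y)⟩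
  obtain ⟨w, h5, h6⟩ := P216R.exists_mid hs hd
  refine lt_of_le_of_lt (add_le_add le_rfl ?_) h6
  rw [ed_comm, ed_comm (x := w)]
  exact h3 ⟨h5.le, h5.ge⟩

theorem Met.exists_mid_dd (hg : Met g U) {d : ℝ} (hc : IsCompact (cbl g U x d))
    (hf : ed g U x y ≠ ⊤) (h0 : 0 ≤ d) (hd : d ≤ dd g U x y) :
    ∃ z, ed g U x z ≠ ⊤ ∧ ed g U z y ≠ ⊤ ∧ dd g U x z = d ∧ dd g U z y = dd g U x y - d := by
  obtain ⟨z, h1, h2⟩ := hg.exists_mid hc hf ((ENNReal.ofReal_le_ofReal hd).trans_eq (ofReal_dd hf))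
  have h3 := (ENNReal.add_ne_top.1 (h2.trans_ne hf)).2
  refine ⟨z, h1 ▸ ENNReal.ofReal_ne_top, h3, by rw [dd, h1, ENNReal.toReal_ofReal h0], ?_⟩
  rw [eq_sub_iff_add_eq', dd, dd, ← h2, ENNReal.toReal_add ENNReal.ofReal_ne_top h3,
    ENNReal.toReal_ofReal h0]

/-! ### curves in charts, finite length -/

theorem deriv_chart {p : M} (hγ : DAt E γ t) (hp : γ t ∈ (chartAt E p).source) :
    deriv (cc (E := E) γ p) t = md E (chartAt E p) (γ t) (vel E γ t) :=
  (vel_model _ t).symm.trans (vel_map (sm_chart hp).md hγ)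

theorem vel_eq_deriv (hγ : DAt E γ t) : vel E γ t = deriv (cc (E := E) γ (γ t)) t := by
  rw [deriv_chart hγ (mem_chart_source E _), md_chart_self]; rfl

theorem spd_chart {p : M} (hγ : DAt E γ t) (hp : γ t ∈ (chartAt E p).source) :
    spd g γ t = √(co g p (cc γ p t) (deriv (cc (E := E) γ p) t) (deriv (cc (E := E) γ p) t)) := by
  rw [deriv_chart hγ hp, spd, ← comap_chart g hp]; rfl

theorem Met.exists_spd (hg : Met g U) (h : Crv E U γ a b) :
    ∃ s : ℝ → ℝ, ContinuousOn s (Icc a b) ∧ EqOn (spd g γ) s (Ioo a b) := by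
  rcases h.le.eq_or_lt with rfl | hab
  · exact ⟨0, continuousOn_const, by simp⟩
  have hu := uniqueDiffOn_Icc hab
  let w : ℝ → E := fun t => mfderivWithin 𝓘(ℝ, ℝ) 𝓘(ℝ, E) γ (Icc a b) t (1 : ℝ)
  refine ⟨fun t => √(g (γ t) (w t) (w t)), fun t ht => ?_, fun t ht => ?_⟩
  · have hp := mem_chart_source E (γ t)
    have h1 : ContDiffWithinAt ℝ 1 (chartAt E (γ t) ∘ γ) (Icc a b) t :=
      (((sm_chart hp).of_le (by exact_mod_cast le_top)).comp_contMDiffWithinAt t
        (h.diff t ht)).contDiffWithinAt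
    have h2 := (h1.continuousWithinAt_fderivWithin hu one_ne_zero ht).clm_apply
      (continuousWithinAt_const (b := (1 : ℝ)))
    have h3 := ContinuousAt.comp_continuousWithinAt (f := chartAt E (γ t) ∘ γ)
      ((hg.isMetricOn (γ t)).contDiffAt (pt_mem_dom (h.mem ht))).continuousAt h1.continuousWithinAt
    have h4 : ∀ s ∈ Icc a b, γ s ∈ (chartAt E (γ t)).source → √(g (γ s) (w s) (w s)) =
        √(co g (γ t) (chartAt E (γ t) (γ s)) (fderivWithin ℝ (chartAt E (γ t) ∘ γ) (Icc a b) s 1)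
          (fderivWithin ℝ (chartAt E (γ t) ∘ γ) (Icc a b) s 1)) := fun s hs h5 => by
      rw [← mfderivWithin_eq_fderivWithin, mfderiv_comp_mfderivWithin s (sm_chart h5).md
        (h.diff.mdifferentiableOn one_ne_zero s hs) (hu s hs).uniqueMDiffWithinAt,
        ← comap_chart g h5]
      rfl
    refine ((h3.clm_apply h2).clm_apply h2).sqrt.congr_of_eventuallyEq ?_ (h4 t ht hp)
    filter_upwards [self_mem_nhdsWithin, h.cont t ht ((chartAt E (γ t)).open_source.mem_nhds hp)]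
      with s h5 h6 using h4 s h5 h6
  · simp only [w, mfderivWithin_of_mem_nhds (Icc_mem_nhds ht.1 ht.2)]; rfl

theorem Met.spd_bdd (hg : Met g U) (h : Crv E U γ a b) : ∃ C, ∀ t ∈ Ioo a b, spd g γ t ≤ C := by
  obtain ⟨s, h1, h2⟩ := hg.exists_spd h
  obtain ⟨C, hC⟩ := isCompact_Icc.bddAbove_image h1
  exact ⟨C, fun t ht => h2 ht ▸ hC (mem_image_of_mem s (Ioo_subset_Icc_self ht))⟩

theorem Met.len_ne_top (hg : Met g U) (h : Crv E U γ a b) : len g γ a b ≠ ⊤ :=
  let ⟨_, hC⟩ := hg.spd_bdd h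
  ne_top_of_le_ne_top (ENNReal.mul_ne_top ENNReal.ofReal_ne_top ENNReal.ofReal_ne_top)
    (len_le_const hC)

theorem Met.continuousOn_spd (hg : Met g U) (h : Crv E U γ a b) :
    ContinuousOn (spd g γ) (Ioo a b) :=
  let ⟨_, h1, h2⟩ := hg.exists_spd h
  (h1.mono Ioo_subset_Icc_self).congr h2

theorem Met.intervalIntegrable_spd (hg : Met g U) (h : Crv E U γ a b) {φ : ℝ → ℝ}
    (hφ : Continuous φ) : IntervalIntegrable (fun t => φ (spd g γ t)) volume a b := by
  obtain ⟨s, h1, h2⟩ := hg.exists_spd h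
  rw [intervalIntegrable_iff_integrableOn_Ioo_of_le h.le]
  exact (((hφ.comp_continuousOn h1).integrableOn_Icc).mono_set Ioo_subset_Icc_self).congr_fun
    (fun t ht => congrArg φ (h2 ht).symm) measurableSet_Ioo

theorem Met.len_eq_integral (hg : Met g U) (h : Crv E U γ a b) :
    len g γ a b = ENNReal.ofReal (∫ t in a..b, spd g γ t) := by
  rw [intervalIntegral.integral_of_le h.le, integral_Ioc_eq_integral_Ioo,
    ofReal_integral_eq_lintegral_ofReal ((intervalIntegrable_iff_integrableOn_Ioo_of_le h.le).1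
      (hg.intervalIntegrable_spd h continuous_id')) (Eventually.of_forall fun _ => spd_nonneg)]
  rfl

theorem Met.dd_le_integral (hg : Met g U) (h : Crv E U γ a b) :
    dd g U (γ a) (γ b) ≤ ∫ t in a..b, spd g γ t :=
  ENNReal.toReal_le_of_le_ofReal (intervalIntegral.integral_nonneg h.le fun _ _ => spd_nonneg)
    ((ed_le_len h).trans_eq (hg.len_eq_integral h))

/-! ### gradients -/

theorem mdF_eq {F : Type} [NormedAddCommGroup F] [NormedSpace ℝ F] {φ : M → F}
    (h : MDifferentiableAt 𝓘(ℝ, E) 𝓘(ℝ, F) φ x) : mdF E φ x = fderiv ℝ (rd E φ x) (pt E x) := by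
  have := mfderiv_comp (pt E x) (show MDifferentiableAt 𝓘(ℝ, E) 𝓘(ℝ, F) φ
    ((chartAt E x).symm (pt E x)) by rwa [symm_pt]) (sm_symm (pt_mem x)).md
  rw [mfderiv_eq_fderiv, symm_pt] at this
  exact (this.trans (congrArg (fun L : E →L[ℝ] E => mdF E φ x ∘L L) (md_symm_pt x))).symm

theorem Met.grad_apply (hg : Met g U) (hx : x ∈ U) (φ : M → ℝ) (v : E) :
    g x (grad g φ x) v = fderiv ℝ (rd E φ x) (pt E x) v := by
  rw [grad, P210.R2.H53.gradG, co_pt, app_inverse (hg.pos x hx)]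

theorem Met.gam_eq (hg : Met g U) (hx : x ∈ U) (φ ψ : M → ℝ) :
    gam g φ ψ x = g x (grad g φ x) (grad g ψ x) := (hg.grad_apply hx φ _).symm

theorem Met.gam_nonneg (hg : Met g U) (hx : x ∈ U) (φ : M → ℝ) : 0 ≤ gam g φ φ x :=
  (hg.nonneg hx _).trans_eq (hg.gam_eq hx φ φ).symm

theorem Met.abs_le (hg : Met g U) (hx : x ∈ U) (v w : E) :
    |g x v w| ≤ √(g x v v) * √(g x w w) := by
  refine _root_.abs_le.2 ⟨?_, cs_form _ (hg.symm x hx) (hg.nonneg hx) _ _⟩
  have := cs_form _ (hg.symm x hx) (hg.nonneg hx) v (-w)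
  simp only [map_neg, neg_apply, neg_neg] at this
  linarith

theorem Met.abs_fderiv_le (hg : Met g U) (hx : x ∈ U) (φ : M → ℝ) (v : E) :
    |fderiv ℝ (rd E φ x) (pt E x) v| ≤ √(gam g φ φ x) * √(g x v v) := by
  rw [← hg.grad_apply hx, hg.gam_eq hx]; exact hg.abs_le hx _ _

/-- a bound on the gradient is a Lipschitz bound -/
theorem Met.lip_of_gam (hg : Met g U) {φ : M → ℝ} (hφ : ContMDiffOn 𝓘(ℝ, E) 𝓘(ℝ, ℝ) 1 φ U) {C : ℝ}
    (hC : 0 < C) (h : ∀ x ∈ U, gam g φ φ x ≤ C ^ 2) (x y : M) :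
    ENNReal.ofReal |φ y - φ x| ≤ ENNReal.ofReal C * ed g U x y := by
  rw [← Real.norm_eq_abs, ofReal_norm_eq_enorm]
  refine lip_of_mfderiv hg.isOpen hφ hC (fun z hz v => ?_) x y
  rw [mdF_eq ((hφ.contMDiffAt (hg.isOpen.mem_nhds hz)).mdifferentiableAt one_ne_zero)]
  exact (hg.abs_fderiv_le hz φ v).trans (mul_le_mul_of_nonneg_right
    (Real.sqrt_le_iff.2 ⟨hC.le, h z hz⟩) (Real.sqrt_nonneg _))

theorem Met.lip_of_gam_bl (hg : Met g U) {φ : M → ℝ}
    (hφ : ContMDiffOn 𝓘(ℝ, E) 𝓘(ℝ, ℝ) 1 φ (bl g U x r)) {C : ℝ} (hC : 0 < C)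
    (h : ∀ z ∈ bl g U x r, gam g φ φ z ≤ C ^ 2) (hy : y ∈ bl g U x r) :
    |φ y - φ x| ≤ C * dd g U x y := by
  have := (hg.mono (hg.isOpen_bl x r) bl_subset).lip_of_gam hφ hC h x y
  rwa [ed_eq_of_bl subset_rfl bl_subset hy, ← ofReal_dd (ne_top_of_lt hy), ← ENNReal.ofReal_mul hC.le,
    ENNReal.ofReal_le_ofReal_iff (mul_nonneg hC.le dd_nonneg)] at this

/-- a one sided Lipschitz bound at `x` bounds the differential -/
theorem Met.fderiv_le (hg : Met g U) (hx : x ∈ U) {φ : M → ℝ}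
    (hφ : DifferentiableAt ℝ (rd E φ x) (pt E x)) {C : ℝ} (hC : 0 ≤ C)
    (h : ∀ᶠ y in 𝓝 x, φ y - φ x ≤ C * dd g U x y) (v : E) :
    fderiv ℝ (rd E φ x) (pt E x) v ≤ C * √(g x v v) := by
  have H : ∀ ε > 0, fderiv ℝ (rd E φ x) (pt E x) v ≤ C * ((1 + ε) * √(g x v v)) := fun ε hε => by
    have h1 : HasDerivAt (fun s : ℝ => pt E x + s • v) v 0 := by
      simpa using ((hasDerivAt_id (0 : ℝ)).smul_const v).const_add (pt E x)
    have h2 := (HasFDerivAt.comp_hasDerivAt_of_eq 0 hφ.hasFDerivAt h1 (by simp)).tendsto_slope_zero_right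
    have h3 : Tendsto (fun s : ℝ => pt E x + s • v) (𝓝 0) (𝓝 (pt E x)) := by
      simpa using h1.continuousAt.tendsto
    refine le_of_tendsto h2 ?_
    filter_upwards [self_mem_nhdsWithin,
      mem_nhdsWithin_of_mem_nhds (((tendsto_symm_pt x).comp h3).eventually h),
      mem_nhdsWithin_of_mem_nhds ((tendsto_const_nhds.prodMk_nhds h3).eventually
        (hg.ed_le_chart hx hε))] with s (s0 : 0 < s) s1 s2
    simp only [symm_pt, sub_add_cancel_left, map_neg, neg_apply, neg_neg] at s2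
    rw [sqrt_smul, abs_of_pos s0] at s2
    have s3 : dd g U x _ ≤ _ := ENNReal.toReal_le_of_le_ofReal (by positivity) s2
    simp only [Function.comp, zero_add, zero_smul, add_zero, rd, symm_pt, smul_eq_mul] at s1 ⊢
    rw [inv_mul_le_iff₀ s0]
    exact s1.trans ((mul_le_mul_of_nonneg_left s3 hC).trans_eq (by ring))
  have h1 : Continuous fun ε : ℝ => C * ((1 + ε) * √(g x v v)) := by fun_prop
  have h2 := ge_of_tendsto ((h1.tendsto 0).mono_left (nhdsWithin_le_nhds (s := Ioi 0)))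
    (eventually_nhdsWithin_of_forall H)
  simpa using h2

theorem Met.gam_le (hg : Met g U) (hx : x ∈ U) {φ : M → ℝ}
    (hφ : DifferentiableAt ℝ (rd E φ x) (pt E x)) {C : ℝ} (hC : 0 ≤ C)
    (h : ∀ᶠ y in 𝓝 x, φ y - φ x ≤ C * dd g U x y) : gam g φ φ x ≤ C ^ 2 := by
  have h1 := hg.fderiv_le hx hφ hC h (grad g φ x)
  rw [← hg.grad_apply hx, ← hg.gam_eq hx] at h1
  have h2 := Real.mul_self_sqrt (hg.gam_nonneg hx φ)
  nlinarith [sq_nonneg (C - √(gam g φ φ x))]

/-! ### isometries -/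

section Iso

variable [IsManifold 𝓘(ℝ, E) ∞ N] {f : N → M} {S : Set N} {k : Ten E N} {p q : N}

theorem ed_iso (hf : LD E f S) (hi : InjOn f S) (he : EqOn k (comap f g) S) (hp : p ∈ S)
    (hq : q ∈ S) : ed g (f '' S) (f p) (f q) = ed k S p q := by
  rw [ed_image hf hi hp hq, ed_congr he]

theorem image_bl (hf : LD E f S) (hi : InjOn f S) (he : EqOn k (comap f g) S) (hp : p ∈ S) (r : ℝ) :
    f '' bl k S p r = bl g (f '' S) (f p) r :=
  subset_antisymm (fun _ ⟨q, a, b⟩ => b ▸ (ed_iso hf hi he hp (bl_subset a)).trans_lt a) fun y hy =>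
    let ⟨q, a, b⟩ := bl_subset hy
    ⟨q, (ed_iso hf hi he hp a).symm.trans_lt (b ▸ hy), b⟩

theorem image_cbl (hf : LD E f S) (hi : InjOn f S) (he : EqOn k (comap f g) S) (hp : p ∈ S)
    (r : ℝ) : f '' cbl k S p r = cbl g (f '' S) (f p) r :=
  subset_antisymm (fun _ ⟨q, a, b⟩ => b ▸ (ed_iso hf hi he hp (cbl_subset a)).trans_le a) fun y hy =>
    let ⟨q, a, b⟩ := cbl_subset hy
    ⟨q, (ed_iso hf hi he hp a).symm.trans_le (b ▸ hy), b⟩

theorem Cpt.image (hc : Cpt k S p R) (hf : LD E f S) (hi : InjOn f S) (he : EqOn k (comap f g) S)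
    (hp : p ∈ S) : Cpt g (f '' S) (f p) R := fun r hr => image_cbl hf hi he hp r ▸
  (hc r hr).image_of_continuousOn (hf.smooth.continuousOn.mono cbl_subset)

theorem LD.isCompact_preimage (hf : LD E f S) (hi : InjOn f S) {T : Set N} (hT : T ⊆ S)
    (hc : IsCompact (f '' T)) : IsCompact T := by
  rcases T.eq_empty_or_nonempty with rfl | ⟨p, -⟩
  · exact isCompact_empty
  have : Nonempty N := ⟨p⟩
  have := hc.image_of_continuousOn ((hf.inverse hi).smooth.continuousOn.mono (image_mono hT))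
  rwa [(hi.leftInvOn_invFunOn.mono hT).image_image] at this

theorem Cpt.of_image (hc : Cpt g (f '' S) (f p) R) (hf : LD E f S) (hi : InjOn f S)
    (he : EqOn k (comap f g) S) (hp : p ∈ S) : Cpt k S p R := fun r hr =>
  hf.isCompact_preimage hi cbl_subset (image_cbl hf hi he hp r ▸ hc r hr)

theorem LD.hs (hf : LD E f S) (hi : InjOn f S) (hm : MapsTo f S U) (hU : Hs U) : Hs S :=
  fun p hp q hq hn => Tendsto.disjoint (hf.continuousAt hp)
    (hU (hm hp) (hm hq) fun e => hn (hi hp hq e)) (hf.continuousAt hq)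

theorem LD.hs_image (hf : LD E f S) (hi : InjOn f S) (hS : Hs S) : Hs (f '' S) := by
  rintro _ ⟨p, hp, rfl⟩ _ ⟨q, hq, rfl⟩ hn
  have : Nonempty N := ⟨p⟩
  exact (hf.inverse hi).hs (Function.invFunOn_injOn_image f S)
    (fun _ hy => Function.invFunOn_mem hy) hS (mem_image_of_mem f hp) (mem_image_of_mem f hq) hn

/-- an isometric embedding of a ball that is complete up to radius `R` is onto the ball -/
theorem Cpt.push (hc : Cpt k S p R) (hf : LD E f S) (hi : InjOn f S) (he : EqOn k (comap f g) S)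
    (hp : p ∈ S) (hm : MapsTo f S U) (hU : Hs U) (hr : r ≤ R) :
    f '' bl k S p r = bl g U (f p) r ∧ ∀ q ∈ bl k S p R, ed g U (f p) (f q) = ed k S p q := by
  have h1 := (hc.image hf hi he hp).bl_subset hU (hf.isOpen_image hf.isOpen subset_rfl)
    hm.image_subset (mem_image_of_mem f hp)
  refine ⟨(image_bl hf hi he hp r).trans (bl_eq_of_bl h1 hm.image_subset hr), fun q hq => ?_⟩
  rw [← ed_iso hf hi he hp (P216R.bl_subset hq)]
  exact (ed_eq_of_bl h1 hm.image_subset (bl_anti hm.image_subset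
    (image_bl hf hi he hp R ▸ mem_image_of_mem f hq))).symm

end Iso

end Vale.Agent.P216R
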