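import Vale.Agent.P216B.Mid

/-! The Riemannian distance induces the topology. -/

set_option linter.all false
set_option maxSynthPendingDepth 3

open scoped Manifold ContDiff Topology ENNReal
open Set MeasureTheory Filter

noncomputable section

namespace Vale.Agent.P216R

open Vale.Agent.P219.RG

variable {E : Type} [NormedAddCommGroup E] [NormedSpace ℝ E]
  {M : Type} [TopologicalSpace M] [ChartedSpace E M]
  {N : Type} [TopologicalSpace N] [ChartedSpace E N]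
  {g h : Ten E M} {U V W K : Set M} {γ γ' : ℝ → M} {a b c t r R : ℝ} {x y z : M}

/-! ### balls, no hypothesis -/

theorem bl_subset_cbl : bl g U x r ⊆ cbl g U x r := fun y h => le_of_lt (show ed g U x y < _ from h)

theorem cbl_subset : cbl g U x r ⊆ U := fun _ h =>
  (mem_of_ed_ne (ne_top_of_le_ne_top ENNReal.ofReal_ne_top h)).2

theorem bl_subset : bl g U x r ⊆ U := bl_subset_cbl.trans cbl_subset

theorem bl_mono (h : r ≤ R) : bl g U x r ⊆ bl g U x R := fun _ hy =>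
  lt_of_lt_of_le hy (ENNReal.ofReal_le_ofReal h)

theorem cbl_mono (h : r ≤ R) : cbl g U x r ⊆ cbl g U x R := fun _ hy =>
  le_trans hy (ENNReal.ofReal_le_ofReal h)

theorem cbl_subset_bl (h0 : 0 < R) (h : r < R) : cbl g U x r ⊆ bl g U x R := fun _ hy =>
  lt_of_le_of_lt hy ((ENNReal.ofReal_lt_ofReal_iff h0).2 h)

theorem mem_bl_self (hx : x ∈ U) (hr : 0 < r) : x ∈ bl g U x r :=
  (ed_self hx).trans_lt (by simpa using hr)

theorem mem_cbl_self (hx : x ∈ U) : x ∈ cbl g U x r := (ed_self hx).trans_le zero_le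

theorem pos_of_mem_bl (h : y ∈ bl g U x r) : 0 < r :=
  ENNReal.ofReal_pos.1 (lt_of_le_of_lt zero_le h)

theorem mem_bl_comm : y ∈ bl g U x r ↔ x ∈ bl g U y r := by
  simp only [bl, mem_ofPred_eq, @ed_comm _ _ _ _ _ _ g U x y]

theorem exists_lt_of_mem_bl (h : y ∈ bl g U x R) : ∃ r, 0 < r ∧ r < R ∧ y ∈ bl g U x r := by
  obtain ⟨r, -, h1, h2⟩ := ENNReal.lt_iff_exists_real_btwn.1 h
  exact ⟨r, pos_of_mem_bl h1, (ENNReal.ofReal_lt_ofReal_iff (pos_of_mem_bl h)).1 h2, h1⟩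

theorem cbl_add {s : ℝ} (hr : 0 ≤ r) (hs : 0 ≤ s) (hy : y ∈ cbl g U x r) :
    cbl g U y s ⊆ cbl g U x (r + s) := fun z hz =>
  (ed_triangle x y z).trans ((add_le_add hy hz).trans_eq (ENNReal.ofReal_add hr hs).symm)

theorem bl_add {s : ℝ} (hr : 0 ≤ r) (hy : y ∈ cbl g U x r) : bl g U y s ⊆ bl g U x (r + s) :=
  fun z hz => (ed_triangle x y z).trans_lt ((ENNReal.add_lt_add_of_le_of_lt
    (ne_top_of_le_ne_top ENNReal.ofReal_ne_top hy) hy hz).trans_eq
      (ENNReal.ofReal_add hr (pos_of_mem_bl hz).le).symm)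

theorem bl_anti (h : V ⊆ U) : bl g V x r ⊆ bl g U x r := fun _ hy => (ed_anti h).trans_lt hy

theorem cbl_anti (h : V ⊆ U) : cbl g V x r ⊆ cbl g U x r := fun _ hy => (ed_anti h).trans hy

theorem ed_eq_of_bl (hV : bl g U x r ⊆ V) (hU : V ⊆ U) (hy : y ∈ bl g U x r) :
    ed g V x y = ed g U x y := le_antisymm (ed_ball hV hy) (ed_anti hU)

theorem bl_eq_of_bl (hV : bl g U x R ⊆ V) (hU : V ⊆ U) (h : r ≤ R) : bl g V x r = bl g U x r :=
  (bl_anti hU).antisymm fun _ hy => (ed_eq_of_bl hV hU (bl_mono h hy)).trans_lt hy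

theorem cbl_eq_of_bl (hV : bl g U x R ⊆ V) (hU : V ⊆ U) (h0 : 0 < R) (h : r < R) :
    cbl g V x r = cbl g U x r :=
  (cbl_anti hU).antisymm fun _ hy => (ed_eq_of_bl hV hU (cbl_subset_bl h0 h hy)).trans_le hy

/-- distances between points of a ball are computed in the double ball -/
theorem ed_eq_of_bl_two (hV : bl g U x (2 * r) ⊆ V) (hU : V ⊆ U) (hy : y ∈ bl g U x r)
    (hz : z ∈ bl g U x r) : ed g V y z = ed g U y z := by
  refine le_antisymm (le_of_forall_gt fun s hs => ?_) (ed_anti hU)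
  have h0 := (pos_of_mem_bl hy).le
  have e : ENNReal.ofReal (2 * r) = ENNReal.ofReal r + ENNReal.ofReal r := by
    rw [two_mul, ENNReal.ofReal_add h0 h0]
  have h1 : ed g U y z < ENNReal.ofReal (2 * r) :=
    (ed_triangle y x z).trans_lt (e ▸ ENNReal.add_lt_add (mem_bl_comm.1 hy) hz)
  obtain ⟨γ, c1, rfl, rfl, c4⟩ := ed_lt_iff.1 (lt_min hs h1)
  refine (ed_le_len (c1.of_mem fun t ht => hV ?_)).trans_lt (c4.trans_le (min_le_left _ _))
  have c5 := c4.trans_le (min_le_right _ _)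
  rw [← len_add ht.1 ht.2, e] at c5
  change ed g U x _ < _
  rw [e]
  rcases lt_or_ge (len g γ 0 t) (ENNReal.ofReal r) with h2 | h2
  · exact (ed_triangle x (γ 0) _).trans_lt (ENNReal.add_lt_add hy
      ((ed_le_len (c1.mono le_rfl ht.1 ht.2)).trans_lt h2))
  · refine (ed_triangle x (γ 1) _).trans_lt (ENNReal.add_lt_add hz (ed_comm.trans_lt
      ((ed_le_len (c1.mono ht.1 ht.2 le_rfl)).trans_lt ?_)))
    exact lt_of_add_lt_add_left ((add_le_add h2 le_rfl).trans_lt c5)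

theorem isPathConnected_bl (hx : x ∈ U) (hr : 0 < r) : IsPathConnected (bl g U x r) :=
  isPathConnected_ball hx (by simpa using hr)

theorem bl_smul {C : ℝ} (hC : 0 < C) : bl (C ^ 2 • g) U x (C * r) = bl g U x r := by
  ext y
  simp only [bl, mem_ofPred_eq, ed_smul hC, ENNReal.ofReal_mul hC.le]
  exact ENNReal.mul_lt_mul_iff_right (by simpa using hC) ENNReal.ofReal_ne_top

theorem cbl_smul {C : ℝ} (hC : 0 < C) : cbl (C ^ 2 • g) U x (C * r) = cbl g U x r := by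
  ext y
  simp only [cbl, mem_ofPred_eq, ed_smul hC, ENNReal.ofReal_mul hC.le]
  exact ENNReal.mul_le_mul_iff_right (by simpa using hC) ENNReal.ofReal_ne_top

theorem Cpt.mono (h : Cpt g U x R) (hr : r ≤ R) : Cpt g U x r := fun s hs => h s (hs.trans_le hr)

theorem Cpl.cpt (h : Cpl g U) (hx : x ∈ U) (R : ℝ) : Cpt g U x R := fun r _ => h x hx r

theorem Cpt.restrict (h : Cpt g U x R) (hV : bl g U x R ⊆ V) (hU : V ⊆ U) (h0 : 0 < R) :
    Cpt g V x R := fun r hr => by rw [cbl_eq_of_bl hV hU h0 hr]; exact h r hr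

/-- completeness up to radius `R` in an open subset: nothing changes in a larger set -/
theorem Cpt.bl_subset (h : Cpt g W x R) (hU : Hs U) (hW : IsOpen W) (hWU : W ⊆ U) (hx : x ∈ W) :
    bl g U x R ⊆ W := fun y hy => by
  obtain ⟨r, -, h1, h2⟩ := exists_lt_of_mem_bl hy
  exact cbl_subset (hU.ball_subset (h r h1) hW cbl_subset (cbl_subset.trans hWU) hx
    (fun z hz => le_of_lt hz) h2).1

theorem Cpt.extend (h : Cpt g W x R) (hU : Hs U) (hW : IsOpen W) (hWU : W ⊆ U) (hx : x ∈ W)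
    (h0 : 0 < R) : Cpt g U x R := fun r hr => by
  rw [← cbl_eq_of_bl (h.bl_subset hU hW hWU hx) hWU h0 hr]; exact h r hr

/-! ### the real valued distance -/

theorem dd_nonneg : 0 ≤ dd g U x y := ENNReal.toReal_nonneg

theorem dd_self : dd g U x x = 0 := by
  by_cases h : ed g U x x = ⊤
  · simp [dd, h]
  · simp [dd, ed_self (mem_of_ed_ne h).1]

theorem dd_comm : dd g U x y = dd g U y x := by rw [dd, ed_comm]; rfl

theorem ofReal_dd (h : ed g U x y ≠ ⊤) : ENNReal.ofReal (dd g U x y) = ed g U x y :=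
  ENNReal.ofReal_toReal h

theorem ed_ne_top_trans (h1 : ed g U x y ≠ ⊤) (h2 : ed g U y z ≠ ⊤) : ed g U x z ≠ ⊤ :=
  ne_top_of_le_ne_top (ENNReal.add_ne_top.2 ⟨h1, h2⟩) (ed_triangle x y z)

theorem dd_triangle (h1 : ed g U x y ≠ ⊤) (h2 : ed g U y z ≠ ⊤) :
    dd g U x z ≤ dd g U x y + dd g U y z := ENNReal.toReal_le_add (ed_triangle x y z) h1 h2

theorem abs_dd_sub (h1 : ed g U x y ≠ ⊤) (h2 : ed g U x z ≠ ⊤) :
    |dd g U x y - dd g U x z| ≤ dd g U y z := by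
  have h3 := ed_ne_top_trans (ed_comm.trans_ne h1) h2
  have := dd_triangle h1 h3
  have := dd_triangle h2 (ed_comm.trans_ne h3)
  rw [dd_comm (x := z)] at this
  exact abs_le.2 ⟨by linarith, by linarith⟩

theorem mem_bl_iff : y ∈ bl g U x r ↔ ed g U x y ≠ ⊤ ∧ dd g U x y < r :=
  ⟨fun h => ⟨ne_top_of_lt h, ENNReal.toReal_lt_of_lt_ofReal h⟩,
    fun h => (ENNReal.lt_ofReal_iff_toReal_lt h.1).2 h.2⟩

theorem mem_cbl_iff (hr : 0 ≤ r) : y ∈ cbl g U x r ↔ ed g U x y ≠ ⊤ ∧ dd g U x y ≤ r :=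
  ⟨fun h => ⟨ne_top_of_le_ne_top ENNReal.ofReal_ne_top h, ENNReal.toReal_le_of_le_ofReal hr h⟩,
    fun h => (ENNReal.le_ofReal_iff_toReal_le h.1 hr).2 h.2⟩

theorem dd_smul {C : ℝ} (hC : 0 < C) : dd (C ^ 2 • g) U x y = C * dd g U x y := by
  rw [dd, ed_smul hC, ENNReal.toReal_mul, ENNReal.toReal_ofReal hC.le]; rfl

theorem dd_le_mul {C : ℝ} (hC : 0 < C) (hle : ∀ x ∈ U, ∀ v, g x v v ≤ C ^ 2 * h x v v)
    (hf : ed h U x y ≠ ⊤) : dd g U x y ≤ C * dd h U x y :=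
  ENNReal.toReal_le_of_le_ofReal (mul_nonneg hC.le dd_nonneg) (by
    rw [ENNReal.ofReal_mul hC.le, ofReal_dd hf]; exact ed_le_mul hC hle x y)

theorem exists_mid_dd (hf : ed g U x y ≠ ⊤) {d ε : ℝ} (h0 : 0 ≤ d) (hd : d ≤ dd g U x y)
    (hε : 0 < ε) : ∃ z, ed g U x z ≠ ⊤ ∧ ed g U z y ≠ ⊤ ∧ dd g U x z = d ∧
      dd g U z y ≤ dd g U x y - d + ε := by
  obtain ⟨z, h1, h2⟩ := exists_mid_real (ofReal_dd hf).symm h0 hd hε
  exact ⟨z, h1 ▸ ENNReal.ofReal_ne_top, ne_top_of_le_ne_top ENNReal.ofReal_ne_top h2,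
    by rw [dd, h1, ENNReal.toReal_ofReal h0], ENNReal.toReal_le_of_le_ofReal (by linarith) h2⟩

/-! ### forms -/

theorem close_forms {α : Type*} {l : Filter α} {F : α → Bil E} {B : Bil E} (hF : Tendsto F l (𝓝 B))
    (hc : 0 < c) (hB : ∀ v, c * ‖v‖ ^ 2 ≤ B v v) {ε : ℝ} (hε : 0 < ε) :
    ∀ᶠ i in l, ∀ v, F i v v ≤ (1 + ε) * B v v ∧ B v v ≤ (1 + ε) * F i v v := by
  obtain ⟨δ, hδ, e⟩ : ∃ δ > 0, δ * (1 + ε) = ε := ⟨ε / (1 + ε), by positivity, by field_simp⟩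
  filter_upwards [Metric.tendsto_nhds.1 hF (δ * c) (by positivity)] with i hi v
  have h1 := (F i - B).le_opNorm₂ v v
  rw [dist_eq_norm] at hi
  have h2 : ‖F i - B‖ * ‖v‖ * ‖v‖ ≤ δ * B v v :=
    calc _ ≤ δ * c * ‖v‖ * ‖v‖ := by gcongr
      _ = δ * (c * ‖v‖ ^ 2) := by ring
      _ ≤ _ := by gcongr; exact hB v
  have h3 := abs_le.1 (h1.trans h2)
  have h4 : 0 ≤ B v v := le_trans (by positivity) (hB v)
  simp only [sub_apply] at h3
  have h5 : δ ≤ ε := by nlinarith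
  constructor <;> nlinarith [h3.1, h3.2]

theorem form_le_norm (B : Bil E) (v : E) : B v v ≤ ‖B‖ * ‖v‖ ^ 2 :=
  (le_abs_self _).trans ((B.le_opNorm₂ v v).trans_eq (by ring))

variable [FiniteDimensional ℝ E]

theorem exists_coer {B : Bil E} (hp : ∀ v, v ≠ 0 → 0 < B v v) :
    ∃ c > 0, ∀ v, c * ‖v‖ ^ 2 ≤ B v v := by
  obtain ⟨R, h0, hR⟩ := (isCompact_form B hp 1).isBounded.exists_pos_norm_le
  refine ⟨(R ^ 2)⁻¹, by positivity, fun v => ?_⟩
  rcases eq_or_ne v 0 with rfl | hv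
  · simp
  have h1 := Real.sqrt_pos.2 (hp v hv)
  have h2 := hR ((√(B v v))⁻¹ • v) (by
    simp only [mem_ofPred_eq, map_smul, smul_apply, smul_eq_mul]
    rw [← mul_assoc, ← mul_inv, Real.mul_self_sqrt (hp v hv).le, inv_mul_cancel₀ (hp v hv).ne'])
  rw [norm_smul, Real.norm_of_nonneg (inv_nonneg.2 h1.le), inv_mul_le_iff₀ h1] at h2
  rw [inv_mul_le_iff₀ (by positivity), ← Real.sq_sqrt (hp v hv).le, ← mul_pow, mul_comm]
  gcongr

/-! ### local comparison with the model space -/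

variable [IsManifold 𝓘(ℝ, E) ∞ M] {ψ : E → M} {S : Set E} {u : E} {ε : ℝ}

theorem Met.comap_pos (hg : Met g U) (hψ : LD E ψ S) (hu : u ∈ S) (hU : ψ u ∈ U) (v : E)
    (hv : v ≠ 0) : 0 < P216R.comap ψ g u v v :=
  hg.pos _ hU _ fun h0 => hv (hψ.inj u hu (h0.trans (map_zero _).symm))

theorem Met.exists_ball (hg : Met g U) (hψ : LD E ψ S) (hu : u ∈ S) (hU : ψ u ∈ U) (hε : 0 < ε)
    {T : Set E} (hT : T ∈ 𝓝 u) : ∃ δ > 0, Metric.ball u δ ⊆ T ∧ LD E ψ (Metric.ball u δ) ∧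
      InjOn ψ (Metric.ball u δ) ∧ MapsTo ψ (Metric.ball u δ) U ∧ ∀ w ∈ Metric.ball u δ, ∀ v,
        P216R.comap ψ g w v v ≤ (1 + ε) ^ 2 * P216R.comap ψ g u v v ∧
        P216R.comap ψ g u v v ≤ (1 + ε) ^ 2 * P216R.comap ψ g w v v := by
  obtain ⟨k, -, k2, -⟩ := exists_inv (hψ.sm hu) (hψ.inj u hu)
  obtain ⟨c, hc, hB⟩ := exists_coer (hg.comap_pos hψ hu hU)
  have h1 := close_forms (hg.contDiffAt (hψ.sm hu) hU).continuousAt.tendsto hc hB
    (ε := (1 + ε) ^ 2 - 1) (by nlinarith)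
  obtain ⟨δ, hδ, H⟩ := Metric.eventually_nhds_iff_ball.1 (k2.and (h1.and
    (((hψ.continuousAt hu).eventually (hg.isOpen.mem_nhds hU)).and
      (inter_mem hT (hψ.isOpen.mem_nhds hu)))))
  exact ⟨δ, hδ, fun w hw => (H w hw).2.2.2.1,
    hψ.mono Metric.isOpen_ball fun w hw => (H w hw).2.2.2.2,
    fun p hp q hq e => by rw [← (H p hp).1, e, (H q hq).1], fun w hw => (H w hw).2.2.1,
    fun w hw => by simpa using (H w hw).2.1⟩

theorem Met.ed_le_loc (hg : Met g U) (hψ : LD E ψ S) (hu : u ∈ S) (hU : ψ u ∈ U) (hε : 0 < ε) :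
    ∀ᶠ p in 𝓝 (u, u), ed g U (ψ p.1) (ψ p.2) ≤
      ENNReal.ofReal ((1 + ε) * √(P216R.comap ψ g u (p.1 - p.2) (p.1 - p.2))) := by
  obtain ⟨δ, hδ, -, h1, -, h2, h3⟩ := hg.exists_ball hψ hu hU hε univ_mem
  filter_upwards [prod_mem_nhds (Metric.ball_mem_nhds u hδ) (Metric.ball_mem_nhds u hδ)] with p hp
  exact (h1.ed_le h2 _ _).trans (ed_le_form (convex_ball u δ) hp.1 hp.2 (by positivity)
    fun w hw v => (h3 w hw v).1)

theorem Met.loc_core (hg : Met g U) (hH : Hs U) (hψ : LD E ψ S) (hu : u ∈ S) (hU : ψ u ∈ U)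
    (hε : 0 < ε) {T : Set E} (hT : T ∈ 𝓝 u) :
    ∃ r > 0, ∀ᶠ p in 𝓝 u, ∀ z ∈ bl g U (ψ p) r, ∃ q ∈ T, ψ q = z ∧
      ENNReal.ofReal √(P216R.comap ψ g u (p - q) (p - q)) ≤
        ENNReal.ofReal (1 + ε) * ed g U (ψ p) z := by
  obtain ⟨δ, hδ, h0, h1, h4, h2, h3⟩ := hg.exists_ball hψ hu hU hε hT
  obtain ⟨c, hc, hB⟩ := exists_coer (hg.comap_pos hψ hu hU)
  have hs := Real.sqrt_pos.2 hc
  refine ⟨√c * (δ / 4) / (1 + ε), by positivity, ?_⟩
  filter_upwards [Metric.ball_mem_nhds u (show 0 < δ / 4 by positivity)] with p hp z hz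
  obtain ⟨q, q1, q2, q3⟩ := bl_pull (g := fun _ => P216R.comap ψ g u) h1 h4 h2 hH
    (show 0 < 1 + ε by positivity) (fun w hw v => (h3 w hw v).2) (isCompact_closedBall u (δ / 2))
    (Metric.closedBall_subset_ball (by linarith)) (Metric.ball_subset_ball (by linarith) hp)
    (fun q hq => by
      have h5 := (norm_le_ed (fun _ _ => hB) p q).trans_lt hq
      rw [mul_div_cancel₀ _ (by positivity), ENNReal.ofReal_lt_ofReal_iff (by positivity),
        mul_lt_mul_iff_right₀ hs, ← dist_eq_norm] at h5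
      have := dist_triangle_left q u p
      rw [Metric.mem_ball, dist_comm] at hp
      rw [Metric.mem_closedBall, dist_comm u p] at *
      linarith) z hz
  exact ⟨q, h0 q1, q2, (form_le_ed (B := P216R.comap ψ g u) (fun _ _ => hg.symm _ hU _ _) (fun _ => hg.nonneg hU _)
    (fun _ _ _ => le_rfl) p q).trans q3⟩

theorem Met.tendsto_ed_loc (hg : Met g U) (hψ : LD E ψ S) (hu : u ∈ S) (hU : ψ u ∈ U) :
    Tendsto (fun p : E × E => ed g U (ψ p.1) (ψ p.2)) (𝓝 (u, u)) (𝓝 0) := by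
  have h1 : Continuous fun p : E × E =>
      ENNReal.ofReal ((1 + 1) * √(P216R.comap ψ g u (p.1 - p.2) (p.1 - p.2))) :=
    ENNReal.continuous_ofReal.comp (by fun_prop)
  exact tendsto_of_tendsto_of_tendsto_of_le_of_le' tendsto_const_nhds
    (by simpa using h1.tendsto (u, u)) (Eventually.of_forall fun _ => zero_le)
    (hg.ed_le_loc hψ hu hU one_pos)

theorem Met.le_ed_loc (hg : Met g U) (hH : Hs U) (hψ : LD E ψ S) (hu : u ∈ S) (hU : ψ u ∈ U)
    (hε : 0 < ε) : ∀ᶠ p in 𝓝 (u, u),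
      ENNReal.ofReal √(P216R.comap ψ g u (p.1 - p.2) (p.1 - p.2)) ≤
        ENNReal.ofReal (1 + ε) * ed g U (ψ p.1) (ψ p.2) := by
  obtain ⟨δ, hδ, -, -, h4, -⟩ := hg.exists_ball hψ hu hU hε univ_mem
  obtain ⟨r, hr, H⟩ := hg.loc_core hH hψ hu hU hε (Metric.ball_mem_nhds u hδ)
  filter_upwards [(continuous_fst.tendsto (u, u)).eventually H,
    (continuous_snd.tendsto (u, u)).eventually (Metric.ball_mem_nhds u hδ),
    (hg.tendsto_ed_loc hψ hu hU).eventually (gt_mem_nhds (ENNReal.ofReal_pos.2 hr))] with p a b c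
  obtain ⟨q, q1, q2, q3⟩ := a _ c
  rwa [h4 q1 b q2] at q3

/-- two point upper asymptotics in the chart at `x` -/
theorem Met.ed_le_chart (hg : Met g U) (hx : x ∈ U) (hε : 0 < ε) :
    ∀ᶠ p in 𝓝 (pt E x, pt E x), ed g U ((chartAt E x).symm p.1) ((chartAt E x).symm p.2) ≤
      ENNReal.ofReal ((1 + ε) * √(g x (p.1 - p.2) (p.1 - p.2))) := by
  rw [← co_pt g x]; exact hg.ed_le_loc (ld_symm x) (pt_mem x) (by rwa [symm_pt]) hε

/-- two point lower asymptotics in the chart at `x` -/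
theorem Met.le_ed_chart (hg : Met g U) (hH : Hs U) (hx : x ∈ U) (hε : 0 < ε) :
    ∀ᶠ p in 𝓝 (pt E x, pt E x), ENNReal.ofReal √(g x (p.1 - p.2) (p.1 - p.2)) ≤
      ENNReal.ofReal (1 + ε) * ed g U ((chartAt E x).symm p.1) ((chartAt E x).symm p.2) := by
  rw [← co_pt g x]; exact hg.le_ed_loc hH (ld_symm x) (pt_mem x) (by rwa [symm_pt]) hε

theorem eventually_chart {P : M → M → E → E → Prop} {a : M} (hx : x ∈ (chartAt E a).source)
    (h : ∀ᶠ p in 𝓝 (chartAt E a x, chartAt E a x),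
      P ((chartAt E a).symm p.1) ((chartAt E a).symm p.2) p.1 p.2) :
    ∀ᶠ p in 𝓝 (x, x), P p.1 p.2 (chartAt E a p.1) (chartAt E a p.2) := by
  have h1 := (chartAt E a).open_source.mem_nhds hx
  have h2 := (chartAt E a).continuousAt hx
  filter_upwards [(h2.prodMap h2).eventually h, prod_mem_nhds h1 h1] with p h3 h4
  simpa only [Prod.map_fst, Prod.map_snd, (chartAt E a).left_inv h4.1,
    (chartAt E a).left_inv h4.2] using h3

/-- charts are locally bi-Lipschitz -/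
theorem Met.chart_lip (hg : Met g U) (hH : Hs U) (hx : x ∈ U) {a : M}
    (ha : x ∈ (chartAt E a).source) : ∃ c > 0, ∃ C > 0, ∀ᶠ p in 𝓝 (x, x),
      ENNReal.ofReal (c * ‖chartAt E a p.1 - chartAt E a p.2‖) ≤ ed g U p.1 p.2 ∧
      ed g U p.1 p.2 ≤ ENNReal.ofReal (C * ‖chartAt E a p.1 - chartAt E a p.2‖) := by
  have h1 := (chartAt E a).map_source ha
  have h2 : (chartAt E a).symm (chartAt E a x) ∈ U := by rwa [(chartAt E a).left_inv ha]
  obtain ⟨c, hc, hB⟩ := exists_coer (hg.comap_pos (ld_symm a) h1 h2)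
  generalize hF : P216R.comap (chartAt E a).symm g (chartAt E a x) = B at hB
  refine ⟨√c / 2, by positivity, 2 * √‖B‖ + 1, by positivity, eventually_chart
    (P := fun y z p q => ENNReal.ofReal (√c / 2 * ‖p - q‖) ≤ ed g U y z ∧
      ed g U y z ≤ ENNReal.ofReal ((2 * √‖B‖ + 1) * ‖p - q‖)) ha ?_⟩
  filter_upwards [hg.ed_le_loc (ld_symm a) h1 h2 one_pos, hg.le_ed_loc hH (ld_symm a) h1 h2 one_pos]
    with p h3 h4
  rw [hF] at h3 h4
  have h5 := Real.sqrt_le_sqrt (hB (p.1 - p.2))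
  have h6 := Real.sqrt_le_sqrt (form_le_norm B (p.1 - p.2))
  rw [Real.sqrt_mul' _ (sq_nonneg _), Real.sqrt_sq (norm_nonneg _)] at h5 h6
  refine ⟨?_, h3.trans (ENNReal.ofReal_le_ofReal (by linarith [norm_nonneg (p.1 - p.2)]))⟩
  refine (ENNReal.mul_le_mul_iff_right (a := ENNReal.ofReal (1 + 1)) (by simp) (by simp)).1
    (le_trans ?_ h4)
  rw [← ENNReal.ofReal_mul (by norm_num)]
  exact ENNReal.ofReal_le_ofReal (by linarith)

/-! ### topology -/

theorem Met.tendsto_ed (hg : Met g U) (hx : x ∈ U) :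
    Tendsto (fun p : M × M => ed g U p.1 p.2) (𝓝 (x, x)) (𝓝 0) := fun s hs =>
  eventually_chart (E := E) (P := fun y z _ _ => ed g U y z ∈ s) (mem_chart_source E x)
    (hg.tendsto_ed_loc (ld_symm x) (pt_mem x) (by rwa [symm_pt]) hs)

theorem Met.tendsto_ed_right (hg : Met g U) (hx : x ∈ U) : Tendsto (ed g U x) (𝓝 x) (𝓝 0) :=
  Tendsto.comp (f := fun y => (x, y)) (g := fun p : M × M => ed g U p.1 p.2) (hg.tendsto_ed hx)
    ((Continuous.prodMk_right x).tendsto x)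

theorem Met.continuousAt_ed (hg : Met g U) (hx : x ∈ U) (hy : y ∈ U) :
    ContinuousAt (fun p : M × M => ed g U p.1 p.2) (x, y) := by
  refine tendsto_of_add (e := fun p => ed g U x p.1 + ed g U y p.2) ?_
    (Eventually.of_forall fun p => ?_) (Eventually.of_forall fun p => ?_)
  · simpa using ((hg.tendsto_ed_right hx).comp (continuous_fst.tendsto (x, y))).add
      ((hg.tendsto_ed_right hy).comp (continuous_snd.tendsto (x, y)))
  · refine (ed_triangle _ x _).trans ((add_le_add le_rfl (ed_triangle _ y _)).trans_eq ?_)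
    rw [ed_comm (y := x)]; ring
  · refine (ed_triangle _ p.1 _).trans ((add_le_add le_rfl (ed_triangle _ p.2 _)).trans_eq ?_)
    rw [ed_comm (y := y) (x := p.2)]; ring

theorem Met.continuousAt_ed_right (hg : Met g U) (x : M) (hy : y ∈ U) :
    ContinuousAt (ed g U x) y :=
  tendsto_of_add (hg.tendsto_ed_right hy) (Eventually.of_forall fun p => ed_triangle _ _ _)
    (Eventually.of_forall fun p => (ed_triangle _ p _).trans_eq (by rw [ed_comm (x := p)]))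

theorem Met.continuousOn_ed (hg : Met g U) (x : M) : ContinuousOn (ed g U x) U :=
  fun _ hy => (hg.continuousAt_ed_right x hy).continuousWithinAt

theorem Met.continuousAt_dd (hg : Met g U) (h : ed g U x y ≠ ⊤) :
    ContinuousAt (fun p : M × M => dd g U p.1 p.2) (x, y) :=
  ContinuousAt.comp (f := fun p : M × M => ed g U p.1 p.2) (ENNReal.continuousAt_toReal h)
    (hg.continuousAt_ed (mem_of_ed_ne h).1 (mem_of_ed_ne h).2)

theorem Met.continuousAt_dd_right (hg : Met g U) (h : ed g U x y ≠ ⊤) :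
    ContinuousAt (dd g U x) y :=
  ContinuousAt.comp (f := ed g U x) (ENNReal.continuousAt_toReal h)
    (hg.continuousAt_ed_right x (mem_of_ed_ne h).2)

theorem Met.isOpen_ball (hg : Met g U) (x : M) (r : ℝ≥0∞) : IsOpen {y | ed g U x y < r} :=
  isOpen_iff_mem_nhds.2 fun y hy =>
    (hg.continuousAt_ed_right x (mem_of_ed_ne (ne_top_of_lt hy)).2).eventually (gt_mem_nhds hy)

theorem Met.isOpen_bl (hg : Met g U) (x : M) (r : ℝ) : IsOpen (bl g U x r) := hg.isOpen_ball x _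

theorem Met.bl_mem_nhds (hg : Met g U) (hx : x ∈ U) (hr : 0 < r) : bl g U x r ∈ 𝓝 x :=
  (hg.isOpen_bl x r).mem_nhds (mem_bl_self hx hr)

theorem Met.isOpen_gt (hg : Met g U) (x : M) (r : ℝ≥0∞) : IsOpen {y | y ∈ U ∧ r < ed g U x y} :=
  (hg.continuousOn_ed x).isOpen_inter_preimage hg.isOpen isOpen_Ioi

theorem Met.isCompact_le (hg : Met g U) (hK : IsCompact K) (hU : K ⊆ U) (x : M) (r : ℝ≥0∞) :
    IsCompact (K ∩ {y | ed g U x y ≤ r}) := by
  convert hK.diff (hg.isOpen_gt x r) using 1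
  ext y
  exact and_congr_right fun hy => by simp [hU hy]

theorem Met.isCompact_ge (hg : Met g U) (hK : IsCompact K) (x : M) (r : ℝ≥0∞) :
    IsCompact (K ∩ {y | r ≤ ed g U x y}) := by
  convert hK.diff (hg.isOpen_ball x r) using 1
  ext y
  simp

theorem Met.isCompact_cbl (hg : Met g U) (hK : IsCompact K) (hU : K ⊆ U) (h : cbl g U x r ⊆ K) :
    IsCompact (cbl g U x r) := (inter_eq_right.2 h) ▸ hg.isCompact_le hK hU x _

theorem Met.cpl (hg : Met g U) (hU : IsCompact U) : Cpl g U :=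
  fun _ _ _ => hg.isCompact_cbl hU subset_rfl cbl_subset

theorem Met.cpt (hg : Met g U) (hK : IsCompact K) (hU : K ⊆ U) (h0 : 0 < R) (h : bl g U x R ⊆ K) :
    Cpt g U x R := fun _ hr => hg.isCompact_cbl hK hU ((cbl_subset_bl h0 hr).trans h)

theorem Cpt.shift (h : Cpt g U x R) (hg : Met g U) (hr : 0 ≤ r) (hR : r < R)
    (hy : y ∈ cbl g U x r) : Cpt g U y (R - r) := fun s hs =>
  hg.isCompact_cbl (h (r + max s 0) (by rcases le_total s 0 with h | h <;> simp [h] <;> linarith))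
    cbl_subset ((cbl_mono (le_max_left _ _)).trans (cbl_add hr (le_max_right _ _) hy))

theorem Met.ed_ne_top (hg : Met g U) (hV : IsPreconnected V) (hU : V ⊆ U) (hx : x ∈ V)
    (hy : y ∈ V) : ed g U x y ≠ ⊤ := by
  have h1 : IsOpen {y | y ∈ U ∧ ed g U x y = ⊤} := isOpen_iff_mem_nhds.2 fun y hy => by
    filter_upwards [hg.bl_mem_nhds hy.1 one_pos] with z hz
    exact ⟨bl_subset hz, by_contra fun h =>
      ed_ne_top_trans h (ne_top_of_lt (mem_bl_comm.1 hz)) hy.2⟩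
  exact ne_top_of_lt (hV.subset_left_of_subset_union (hg.isOpen_ball x ⊤) h1
    (disjoint_left.2 fun z h1 h2 => ne_top_of_lt h1 h2.2)
    (fun z hz => (eq_or_ne (ed g U x z) ⊤).elim (fun h => Or.inr ⟨hU hz, h⟩) fun h => Or.inl h.lt_top)
    ⟨x, hx, (ed_self (hU hx)).trans_lt ENNReal.zero_lt_top⟩ hy)

theorem Met.cpl_of (hg : Met g U) (hc : IsPreconnected U) (hx : x ∈ U)
    (h : ∀ r, IsCompact (cbl g U x r)) : Cpl g U := fun y hy r =>
  hg.isCompact_cbl (h _) cbl_subset ((cbl_mono (le_max_left r 0)).trans (cbl_add dd_nonneg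
    (le_max_right _ _) (ofReal_dd (hg.ed_ne_top hc subset_rfl hx hy)).ge))

theorem Met.hasBasis (hg : Met g U) (hH : Hs U) (hx : x ∈ U) :
    (𝓝 x).HasBasis (fun r : ℝ => 0 < r) (bl g U x) := by
  refine ⟨fun s => ⟨fun hs => ?_, fun ⟨r, hr, h⟩ => mem_of_superset (hg.bl_mem_nhds hx hr) h⟩⟩
  obtain ⟨r, hr, H⟩ := hg.loc_core hH (ld_symm x) (pt_mem x) (by rwa [symm_pt]) one_pos
    (tendsto_symm_pt x hs)
  refine ⟨r, hr, fun z hz => ?_⟩
  obtain ⟨q, q1, rfl, -⟩ := H.self_of_nhds z (by rwa [symm_pt])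
  exact q1

theorem Met.hasBasis_cbl (hg : Met g U) (hH : Hs U) (hx : x ∈ U) :
    (𝓝 x).HasBasis (fun r : ℝ => 0 < r) (cbl g U x) :=
  (hg.hasBasis hH hx).to_hasBasis
    (fun r hr => ⟨r / 2, half_pos hr, cbl_subset_bl hr (half_lt_self hr)⟩)
    fun r hr => ⟨r, hr, bl_subset_cbl⟩

theorem Met.hasBasis_ed (hg : Met g U) (hH : Hs U) (hx : x ∈ U) :
    (𝓝 x).HasBasis (fun r : ℝ≥0∞ => 0 < r) fun r => {y | ed g U x y < r} :=
  (hg.hasBasis hH hx).to_hasBasis (fun r hr => ⟨.ofReal r, by simpa using hr, subset_rfl⟩)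
    fun r hr => by
      obtain ⟨s, -, h1, h2⟩ := ENNReal.lt_iff_exists_real_btwn.1 hr
      exact ⟨s, by simpa using h1, fun _ h => lt_trans h h2⟩

theorem Met.tendsto_iff {α : Type*} {l : Filter α} {f : α → M} (hg : Met g U) (hH : Hs U)
    (hx : x ∈ U) : Tendsto f l (𝓝 x) ↔ Tendsto (fun i => ed g U x (f i)) l (𝓝 0) :=
  ⟨(hg.tendsto_ed_right hx).comp, fun h => (hg.hasBasis_ed hH hx).tendsto_right_iff.2
    fun r hr => h.eventually (gt_mem_nhds hr)⟩

theorem Met.eq_of_ed (hg : Met g U) (hH : Hs U) (h : ed g U x y = 0) : x = y := by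
  obtain ⟨hx, hy⟩ := mem_of_ed_ne (h.trans_ne ENNReal.zero_ne_top)
  exact hH.eq_of_tendsto (l := (⊤ : Filter Unit)) (f := fun _ => y) hx hy
    ((hg.tendsto_iff hH hx).2 (by simp [h])) tendsto_const_nhds

theorem Met.dd_pos (hg : Met g U) (hH : Hs U) (h : ed g U x y ≠ ⊤) (hn : x ≠ y) : 0 < dd g U x y :=
  ENNReal.toReal_pos (mt (hg.eq_of_ed hH) hn) h

/-- small closed balls are compact -/
theorem Met.exists_cpt (hg : Met g U) (hH : Hs U) (hx : x ∈ U) : ∃ R > 0, Cpt g U x R := by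
  have : LocallyCompactSpace M := ChartedSpace.locallyCompactSpace E M
  obtain ⟨K, h1, h2, h3⟩ := local_compact_nhds (hg.isOpen.mem_nhds hx)
  obtain ⟨R, h4, h5⟩ := (hg.hasBasis hH hx).mem_iff.1 h1
  exact ⟨R, h4, hg.cpt h3 h2 h4 h5⟩

/-- Lebesgue number of a compact set in an open set -/
theorem Met.exists_bl_subset (hg : Met g U) (hH : Hs U) (hK : IsCompact K) (hU : K ⊆ U)
    (hW : IsOpen W) (hKW : K ⊆ W) : ∃ r > 0, ∀ x ∈ K, bl g U x r ⊆ W := by
  refine hK.induction_on (p := fun K => ∃ r > 0, ∀ x ∈ K, bl g U x r ⊆ W) ⟨1, one_pos, by simp⟩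
    (fun s t h ⟨r, h1, h2⟩ => ⟨r, h1, fun x hx => h2 x (h hx)⟩)
    (fun s t ⟨r, h1, h2⟩ ⟨r', h3, h4⟩ => ⟨min r r', lt_min h1 h3, fun x hx => hx.elim
      (fun h => (bl_mono (min_le_left _ _)).trans (h2 x h))
      fun h => (bl_mono (min_le_right _ _)).trans (h4 x h)⟩) fun x hx => ?_
  obtain ⟨r, h1, h2⟩ := (hg.hasBasis hH (hU hx)).mem_iff.1 (hW.mem_nhds (hKW hx))
  exact ⟨_, mem_nhdsWithin_of_mem_nhds (hg.bl_mem_nhds (hU hx) (half_pos h1)), r / 2, half_pos h1,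
    fun y hy => (bl_add (half_pos h1).le (bl_subset_cbl hy)).trans (by rwa [add_halves])⟩

end Vale.Agent.P216R
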